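import Vale.Agent.P112.H213.Norm

/-!
# P112, DEC: the operators along a field `(1, u)` and their trivial bounds
-/

set_option linter.unusedSectionVars false
set_option linter.style.haveILetI false

open MeasureTheory Set
open scoped ENNReal NNReal

namespace Vale.Agent.P112.DEC

/-- admissible field: continuous, bounded (the bound never enters a constant), `e`-Lipschitz in
the second variable -/
structure UOK (e : ℝ) (u : ℝ × ℝ → ℝ) : Prop where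
  cont : Continuous u
  bdd : ∃ U, ∀ z, |u z| ≤ U
  lip : ∀ x y y', |u (x, y) - u (x, y')| ≤ e * |y - y'|

/-- admissible kernel: continuous, supported in `[-1, 1]` -/
structure KOK (K : ℝ → ℝ) : Prop where
  cont : Continuous K
  supp : ∀ t, 1 ≤ |t| → K t = 0

/-- the operator with kernel `K` along the field `(1, u)` -/
noncomputable def TT (K : ℝ → ℝ) (u : ℝ × ℝ → ℝ) (F : ℝ × ℝ → ℝ) (z : ℝ × ℝ) : ℝ :=
  ∫ t, K t * F (z.1 - t, z.2 - t * u z)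

theorem lint_comp1 {g : ℝ → ℝ} (hg : ∀ y y', |y - y'| ≤ 2 * |g y - g y'|) (hm : Measurable g)
    (H : ℝ → ℝ≥0∞) (hH : Measurable H) : ∫⁻ y, H (g y) ≤ 2 * ∫⁻ y, H y := by
  have ha : AntilipschitzWith 2 g :=
    AntilipschitzWith.of_le_mul_dist (fun y y' => by simpa [Real.dist_eq] using hg y y')
  have h1 : Measure.map g volume ≤ (2 : ℝ≥0∞) • volume := by
    refine Measure.le_iff.2 fun s hs => ?_
    rw [Measure.map_apply hm hs]
    have := ha.hausdorffMeasure_preimage_le (d := 1) zero_le_one s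
    simpa [hausdorffMeasure_real] using this
  calc ∫⁻ y, H (g y) = ∫⁻ y, H y ∂(Measure.map g volume) := (lintegral_map hH hm).symm
    _ ≤ ∫⁻ y, H y ∂((2 : ℝ≥0∞) • volume) := lintegral_mono' h1 le_rfl
    _ = 2 * ∫⁻ y, H y := by rw [lintegral_smul_measure, smul_eq_mul]

theorem UOK.anti {e : ℝ} (he : e ≤ 1 / 2) {u : ℝ × ℝ → ℝ} (hu : UOK e u) {t : ℝ} (ht : |t| ≤ 1)
    (x y y' : ℝ) : |y - y'| ≤ 2 * |(y - t * u (x, y)) - (y' - t * u (x, y'))| := by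
  have h1 := hu.lip x y y'
  have h2 : |t * (u (x, y) - u (x, y'))| ≤ 1 / 2 * |y - y'| := by
    rw [abs_mul]
    calc |t| * |u (x, y) - u (x, y')| ≤ 1 * |u (x, y) - u (x, y')| :=
          mul_le_mul_of_nonneg_right ht (abs_nonneg _)
      _ ≤ e * |y - y'| := by rw [one_mul]; exact h1
      _ ≤ 1 / 2 * |y - y'| := mul_le_mul_of_nonneg_right he (abs_nonneg _)
  have h3 : |y - y'| ≤ |(y - t * u (x, y)) - (y' - t * u (x, y'))| +
      |t * (u (x, y) - u (x, y'))| := by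
    have := abs_add_le ((y - t * u (x, y)) - (y' - t * u (x, y'))) (t * (u (x, y) - u (x, y')))
    have h4 : (y - t * u (x, y)) - (y' - t * u (x, y')) + t * (u (x, y) - u (x, y')) = y - y' := by
      ring
    rwa [h4] at this
  linarith

theorem lint_comp {e : ℝ} (he : e ≤ 1 / 2) {u : ℝ × ℝ → ℝ} (hu : UOK e u) {t : ℝ} (ht : |t| ≤ 1)
    (G : ℝ × ℝ → ℝ≥0∞) (hG : Measurable G) :
    ∫⁻ z : ℝ × ℝ, G (z.1 - t, z.2 - t * u z) ≤ 2 * ∫⁻ z, G z := by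
  have hm : Measurable fun z : ℝ × ℝ => G (z.1 - t, z.2 - t * u z) := by
    have := hu.cont.measurable
    exact hG.comp ((measurable_fst.sub_const t).prodMk (measurable_snd.sub (this.const_mul t)))
  rw [Measure.volume_eq_prod, lintegral_prod _ hm.aemeasurable, lintegral_prod _ hG.aemeasurable]
  calc ∫⁻ x : ℝ, ∫⁻ y : ℝ, G (x - t, y - t * u (x, y))
      ≤ ∫⁻ x : ℝ, 2 * ∫⁻ y : ℝ, G (x - t, y) := by
        refine lintegral_mono fun x => ?_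
        have hux : Measurable fun y : ℝ => y - t * u (x, y) := by
          have : Continuous fun y : ℝ => u (x, y) := hu.cont.comp (by fun_prop)
          exact (measurable_id.sub (this.measurable.const_mul t))
        exact lint_comp1 (g := fun y => y - t * u (x, y)) (hu.anti he ht x) hux
          (fun y => G (x - t, y)) (hG.comp (by fun_prop))
    _ = 2 * ∫⁻ x : ℝ, ∫⁻ y : ℝ, G (x - t, y) := by
        rw [lintegral_const_mul' _ _ (by norm_num)]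
    _ = 2 * ∫⁻ x : ℝ, ∫⁻ y : ℝ, G (x, y) := by
        rw [lintegral_sub_right_eq_self (fun x => ∫⁻ y : ℝ, G (x, y)) t]

/-- the support of the translates -/
theorem UOK.supp {e : ℝ} (he : e ≤ 1 / 2) {u : ℝ × ℝ → ℝ} (hu : UOK e u) (R : ℝ) :
    ∃ R', ∀ z : ℝ × ℝ, R' ≤ |z.1| ∨ R' ≤ |z.2| → ∀ t : ℝ, |t| ≤ 1 →
      R ≤ |z.1 - t| ∨ R ≤ |z.2 - t * u z| := by
  obtain ⟨M, hM⟩ : ∃ M, ∀ x ∈ Icc (-(|R| + 1)) (|R| + 1), |u (x, 0)| ≤ M := by
    have h1 : Continuous fun x : ℝ => |u (x, 0)| := (hu.cont.comp (by fun_prop)).abs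
    obtain ⟨M, hM⟩ := (isCompact_Icc (a := -(|R| + 1)) (b := |R| + 1)).bddAbove_image h1.continuousOn
    exact ⟨M, fun x hx => hM (mem_image_of_mem _ hx)⟩
  have hM0 : 0 ≤ M := (abs_nonneg _).trans (hM 0 ⟨by linarith [abs_nonneg R], by positivity⟩)
  refine ⟨2 * (|R| + 1 + M), fun z hz t ht => ?_⟩
  by_cases h1 : |R| + 1 ≤ |z.1|
  · left
    have := abs_sub_abs_le_abs_sub z.1 t
    have := le_abs_self R
    linarith
  · push Not at h1
    have h2 : 2 * (|R| + 1 + M) ≤ |z.2| := by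
      rcases hz with hz | hz
      · exfalso; linarith [abs_nonneg R]
      · exact hz
    right
    have h3 := hM z.1 (by rw [mem_Icc, ← abs_le]; exact h1.le)
    have h4 : |u z| ≤ M + 1 / 2 * |z.2| := by
      have h5 := hu.lip z.1 z.2 0
      rw [sub_zero] at h5
      have h6 := abs_sub_abs_le_abs_sub (u (z.1, z.2)) (u (z.1, 0))
      have h7 : e * |z.2| ≤ 1 / 2 * |z.2| := mul_le_mul_of_nonneg_right he (abs_nonneg _)
      have h8 : u (z.1, z.2) = u z := rfl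
      rw [h8] at h6 h5
      linarith
    have h5 : |t * u z| ≤ |u z| := by
      rw [abs_mul]; exact mul_le_of_le_one_left (abs_nonneg _) ht
    have h6 := abs_sub_abs_le_abs_sub z.2 (t * u z)
    have := le_abs_self R
    linarith

theorem TT_cont {K : ℝ → ℝ} (hK : KOK K) {u F : ℝ × ℝ → ℝ} (hu : Continuous u)
    (hF : Continuous F) : Continuous (TT K u F) := by
  have h1 : ∀ z, TT K u F z = ∫ t in Icc (-1 : ℝ) 1, K t * F (z.1 - t, z.2 - t * u z) := by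
    intro z
    rw [TT, setIntegral_eq_integral_of_forall_compl_eq_zero]
    intro t ht
    rw [mem_Icc, ← abs_le, not_le] at ht
    rw [hK.supp t ht.le, zero_mul]
  have h2 : TT K u F = fun z => ∫ t in Icc (-1 : ℝ) 1, K t * F (z.1 - t, z.2 - t * u z) :=
    funext h1
  rw [h2]
  refine continuous_parametric_integral_of_continuous (f := fun z t => K t * F (z.1 - t, z.2 - t * u z))
    ?_ isCompact_Icc
  have h3 := hK.cont
  show Continuous fun p : (ℝ × ℝ) × ℝ => K p.2 * F (p.1.1 - p.2, p.1.2 - p.2 * u p.1)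
  fun_prop

theorem TT_supp {K : ℝ → ℝ} (hK : KOK K) {e : ℝ} (he : e ≤ 1 / 2) {u : ℝ × ℝ → ℝ} (hu : UOK e u)
    {F : ℝ × ℝ → ℝ} (hF : CC2 F) : CC2 (TT K u F) := by
  obtain ⟨R, hR⟩ := hF.bm.supp
  obtain ⟨R', hR'⟩ := hu.supp he R
  refine CC2.of_supp (TT_cont hK hu.cont hF.1) (R := R') fun z hz => ?_
  rw [TT, ← integral_zero ℝ ℝ (μ := volume)]
  congr 1
  ext t
  by_cases ht : |t| ≤ 1
  · rw [hR (z.1 - t, z.2 - t * u z) (hR' z hz t ht), mul_zero]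
  · rw [hK.supp t (not_le.1 ht).le, zero_mul]

/-- the positive operator -/
noncomputable def AP (u : ℝ × ℝ → ℝ) (F : ℝ × ℝ → ℝ≥0∞) (z : ℝ × ℝ) : ℝ≥0∞ :=
  ∫⁻ t in Icc (-1 : ℝ) 1, F (z.1 - t, z.2 - t * u z)

theorem measurable_AP {u : ℝ × ℝ → ℝ} (hu : Continuous u) {F : ℝ × ℝ → ℝ≥0∞} (hF : Measurable F) :
    Measurable (AP u F) := by
  unfold AP
  refine Measurable.lintegral_prod_right' (f := fun p : (ℝ × ℝ) × ℝ =>
    F (p.1.1 - p.2, p.1.2 - p.2 * u p.1)) ?_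
  have h := hu.measurable
  refine hF.comp ?_
  fun_prop

theorem enorm_TT_le {K : ℝ → ℝ} (hK : KOK K) {c : ℝ} (hc : ∀ t, |K t| ≤ c) (u F : ℝ × ℝ → ℝ)
    (z : ℝ × ℝ) : ‖TT K u F z‖ₑ ≤ ENNReal.ofReal c * AP u (fun w => ‖F w‖ₑ) z := by
  have h0 : ∀ t, K t * F (z.1 - t, z.2 - t * u z) =
      (Icc (-1 : ℝ) 1).indicator (fun t => K t * F (z.1 - t, z.2 - t * u z)) t := by
    intro t
    by_cases ht : t ∈ Icc (-1 : ℝ) 1
    · rw [indicator_of_mem ht]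
    · rw [indicator_of_notMem ht]
      rw [mem_Icc, ← abs_le, not_le] at ht
      rw [hK.supp t ht.le, zero_mul]
  unfold TT AP
  refine (enorm_integral_le_lintegral_enorm _).trans ?_
  rw [← lintegral_const_mul' _ _ ENNReal.ofReal_ne_top, ← lintegral_indicator measurableSet_Icc]
  refine lintegral_mono fun t => ?_
  rw [h0 t]
  by_cases ht : t ∈ Icc (-1 : ℝ) 1
  · rw [indicator_of_mem ht, indicator_of_mem ht, enorm_mul]
    refine mul_le_mul_left ?_ _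
    rw [Real.enorm_eq_ofReal_abs]
    exact ENNReal.ofReal_le_ofReal (hc t)
  · rw [indicator_of_notMem ht, indicator_of_notMem ht]; simp

/-- Cauchy–Schwarz on `[-1, 1]` -/
theorem lint_sq_le (f : ℝ → ℝ≥0∞) (hf : Measurable f) :
    (∫⁻ t in Icc (-1 : ℝ) 1, f t) ^ 2 ≤ 2 * ∫⁻ t in Icc (-1 : ℝ) 1, f t ^ 2 := by
  have h := ENNReal.lintegral_mul_le_Lp_mul_Lq (volume.restrict (Icc (-1 : ℝ) 1))
    (Real.HolderConjugate.two_two) (f := fun _ => 1) (g := f) aemeasurable_const hf.aemeasurable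
  simp only [Pi.mul_apply, one_mul, ENNReal.one_rpow, lintegral_const, MeasurableSet.univ,
    Measure.restrict_apply, univ_inter, Real.volume_Icc] at h
  have h2 : (∫⁻ t in Icc (-1 : ℝ) 1, f t) ^ 2 ≤
      ((ENNReal.ofReal (1 - -1)) ^ (1 / 2 : ℝ) *
        (∫⁻ t in Icc (-1 : ℝ) 1, f t ^ (2 : ℝ)) ^ (1 / 2 : ℝ)) ^ 2 := pow_le_pow_left' h 2
  refine h2.trans (le_of_eq ?_)
  rw [mul_pow, ← ENNReal.rpow_natCast, ← ENNReal.rpow_natCast, ← ENNReal.rpow_mul,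
    ← ENNReal.rpow_mul]
  norm_num

theorem lint_AP_sq {e : ℝ} (he : e ≤ 1 / 2) {u : ℝ × ℝ → ℝ} (hu : UOK e u) {F : ℝ × ℝ → ℝ≥0∞}
    (hF : Measurable F) : ∫⁻ z, AP u F z ^ 2 ≤ 8 * ∫⁻ z, F z ^ 2 := by
  have hm : Measurable fun p : (ℝ × ℝ) × ℝ => F (p.1.1 - p.2, p.1.2 - p.2 * u p.1) := by
    have h := hu.cont.measurable
    exact hF.comp (by fun_prop)
  calc ∫⁻ z, AP u F z ^ 2
      ≤ ∫⁻ z : ℝ × ℝ, 2 * ∫⁻ t in Icc (-1 : ℝ) 1, F (z.1 - t, z.2 - t * u z) ^ 2 :=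
        lintegral_mono fun z => lint_sq_le _ (hm.comp (measurable_const.prodMk measurable_id))
    _ = 2 * ∫⁻ z : ℝ × ℝ, ∫⁻ t in Icc (-1 : ℝ) 1, F (z.1 - t, z.2 - t * u z) ^ 2 := by
        rw [lintegral_const_mul' _ _ (by norm_num)]
    _ = 2 * ∫⁻ t in Icc (-1 : ℝ) 1, ∫⁻ z : ℝ × ℝ, F (z.1 - t, z.2 - t * u z) ^ 2 := by
        rw [lintegral_lintegral_swap (hm.pow_const 2).aemeasurable]
    _ ≤ 2 * ∫⁻ t in Icc (-1 : ℝ) 1, 2 * ∫⁻ z : ℝ × ℝ, F z ^ 2 := by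
        gcongr 2 * ?_
        refine setLIntegral_mono' measurableSet_Icc fun t ht => ?_
        exact lint_comp he hu (abs_le.2 ht) (fun z => F z ^ 2) (hF.pow_const 2)
    _ = 8 * ∫⁻ z, F z ^ 2 := by
        rw [setLIntegral_const, Real.volume_Icc]
        have : ENNReal.ofReal (1 - -1) = 2 := by norm_num
        rw [this]; ring

theorem N_le_of_lint {F G : ℝ × ℝ → ℝ} (hF : BM2 F) (hG : BM2 G) {c : ℝ} (hc : 0 ≤ c)
    (h : ∫⁻ z, ‖F z‖ₑ ^ 2 ≤ ENNReal.ofReal (c ^ 2) * ∫⁻ z, ‖G z‖ₑ ^ 2) : N F ≤ c * N G := by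
  rw [← N_lint hF, ← N_lint hG, ← ENNReal.ofReal_mul (sq_nonneg c),
    ENNReal.ofReal_le_ofReal_iff (by positivity), ← mul_pow] at h
  exact le_of_sq_le_sq h (mul_nonneg hc (N_nonneg _))

theorem N_TT_le {K : ℝ → ℝ} (hK : KOK K) {c : ℝ} (hc : ∀ t, |K t| ≤ c) {e : ℝ} (he : e ≤ 1 / 2)
    {u : ℝ × ℝ → ℝ} (hu : UOK e u) {F : ℝ × ℝ → ℝ} (hF : CC2 F) :
    N (TT K u F) ≤ 3 * c * N F := by
  have hc0 : 0 ≤ c := (abs_nonneg _).trans (hc 0)
  refine N_le_of_lint (TT_supp hK he hu hF).bm hF.bm (by positivity) ?_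
  calc ∫⁻ z, ‖TT K u F z‖ₑ ^ 2
      ≤ ∫⁻ z, ENNReal.ofReal c ^ 2 * AP u (fun w => ‖F w‖ₑ) z ^ 2 := by
        refine lintegral_mono fun z => ?_
        rw [← mul_pow]
        exact pow_le_pow_left' (enorm_TT_le hK hc u F z) 2
    _ = ENNReal.ofReal c ^ 2 * ∫⁻ z, AP u (fun w => ‖F w‖ₑ) z ^ 2 :=
        lintegral_const_mul' _ _ (ENNReal.pow_ne_top ENNReal.ofReal_ne_top)
    _ ≤ ENNReal.ofReal c ^ 2 * (8 * ∫⁻ z, ‖F z‖ₑ ^ 2) := by
        gcongr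
        exact lint_AP_sq he hu hF.1.measurable.enorm
    _ ≤ ENNReal.ofReal ((3 * c) ^ 2) * ∫⁻ z, ‖F z‖ₑ ^ 2 := by
        rw [← mul_assoc]
        refine mul_le_mul_left ?_ _
        rw [mul_pow, ENNReal.ofReal_mul (by norm_num), ENNReal.ofReal_pow hc0, mul_comm]
        refine mul_le_mul_left ?_ _
        norm_num

/-- Cauchy–Schwarz with a weight -/
theorem avg_cs (w g : ℝ → ℝ≥0∞) (hw : Measurable w) (hg : Measurable g) :
    (∫⁻ ω, w ω * g ω) ^ 2 ≤ (∫⁻ ω, w ω) * ∫⁻ ω, w ω * g ω ^ 2 := by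
  have h := ENNReal.lintegral_mul_le_Lp_mul_Lq volume (Real.HolderConjugate.two_two)
    (f := fun ω => w ω ^ (1 / 2 : ℝ)) (g := fun ω => w ω ^ (1 / 2 : ℝ) * g ω)
    (hw.pow_const _).aemeasurable ((hw.pow_const _).mul hg).aemeasurable
  have e0 : ∀ ω, w ω ^ (1 / 2 : ℝ) * w ω ^ (1 / 2 : ℝ) = w ω := by
    intro ω
    rw [← ENNReal.rpow_add_of_nonneg _ _ (by (clear * -; norm_num)) (by norm_num)]
    norm_num
  have e1 : ∀ ω, (((fun ω => w ω ^ (1 / 2 : ℝ)) * fun ω => w ω ^ (1 / 2 : ℝ) * g ω) : ℝ → ℝ≥0∞) ω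
      = w ω * g ω := by
    intro ω
    simp only [Pi.mul_apply]
    rw [← mul_assoc, e0]
  have e2 : ∀ ω, (w ω ^ (1 / 2 : ℝ)) ^ (2 : ℝ) = w ω := by
    intro ω
    rw [← ENNReal.rpow_mul]; norm_num
  have e3 : ∀ ω, (w ω ^ (1 / 2 : ℝ) * g ω) ^ (2 : ℝ) = w ω * g ω ^ 2 := by
    intro ω
    rw [ENNReal.mul_rpow_of_nonneg _ _ (by norm_num), e2, ENNReal.rpow_two]
  rw [lintegral_congr e1] at h
  simp only [e2, e3] at h
  calc (∫⁻ ω, w ω * g ω) ^ 2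
      ≤ ((∫⁻ ω, w ω) ^ (1 / 2 : ℝ) * (∫⁻ ω, w ω * g ω ^ 2) ^ (1 / 2 : ℝ)) ^ 2 := by
        (clear * - h; gcongr)
    _ = (∫⁻ ω, w ω) * ∫⁻ ω, w ω * g ω ^ 2 := by
        rw [mul_pow, ← ENNReal.rpow_two, ← ENNReal.rpow_two, ← ENNReal.rpow_mul,
          ← ENNReal.rpow_mul]
        norm_num

/-- the bound by the mass of the kernel -/
theorem N_TT_le_mass {K : ℝ → ℝ} (hK : KOK K) {m : ℝ} (hm : ∫ t, |K t| ≤ m) {e : ℝ}
    (he : e ≤ 1 / 2) {u : ℝ × ℝ → ℝ} (hu : UOK e u) {F : ℝ × ℝ → ℝ} (hF : CC2 F) :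
    N (TT K u F) ≤ 2 * m * N F := by
  have hm0 : 0 ≤ m := (integral_nonneg fun _ => abs_nonneg _).trans hm
  have hKi : Integrable K := by
    refine hK.cont.integrable_of_hasCompactSupport (HasCompactSupport.intro (K := Icc (-1) 1)
      isCompact_Icc fun t ht => hK.supp t ?_)
    rw [mem_Icc, ← abs_le, not_le] at ht; exact ht.le
  have hKm := hK.cont.measurable
  have hmass : ∫⁻ t, ‖K t‖ₑ ≤ ENNReal.ofReal m := by
    have h1 : ∫⁻ t, ‖K t‖ₑ = ENNReal.ofReal (∫ t, |K t|) := by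
      rw [ofReal_integral_eq_lintegral_ofReal hKi.abs
        (Filter.Eventually.of_forall fun _ => abs_nonneg _)]
      exact lintegral_congr fun s => Real.enorm_eq_ofReal_abs _
    rw [h1]; exact ENNReal.ofReal_le_ofReal hm
  refine N_le_of_lint (TT_supp hK he hu hF).bm hF.bm (by positivity) ?_
  have hmm : Measurable fun p : (ℝ × ℝ) × ℝ => ‖F (p.1.1 - p.2, p.1.2 - p.2 * u p.1)‖ₑ := by
    have h := hu.cont.measurable
    have h1 := hF.1.measurable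
    exact (h1.comp (by fun_prop)).enorm
  have hmm2 : Measurable fun p : (ℝ × ℝ) × ℝ =>
      ‖K p.2‖ₑ * ‖F (p.1.1 - p.2, p.1.2 - p.2 * u p.1)‖ₑ ^ 2 :=
    (hKm.comp measurable_snd).enorm.mul (hmm.pow_const 2)
  calc ∫⁻ z, ‖TT K u F z‖ₑ ^ 2
      ≤ ∫⁻ z : ℝ × ℝ, (∫⁻ t, ‖K t‖ₑ) *
          ∫⁻ t, ‖K t‖ₑ * ‖F (z.1 - t, z.2 - t * u z)‖ₑ ^ 2 := by
        refine lintegral_mono fun z => ?_
        have h1 : ‖TT K u F z‖ₑ ≤ ∫⁻ t, ‖K t‖ₑ * ‖F (z.1 - t, z.2 - t * u z)‖ₑ := by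
          refine (enorm_integral_le_lintegral_enorm _).trans (le_of_eq ?_)
          exact lintegral_congr fun s => enorm_mul _ _
        refine (pow_le_pow_left' h1 2).trans ?_
        exact avg_cs _ _ hKm.enorm (hmm.comp (measurable_const.prodMk measurable_id))
    _ = (∫⁻ t, ‖K t‖ₑ) * ∫⁻ z : ℝ × ℝ, ∫⁻ t, ‖K t‖ₑ * ‖F (z.1 - t, z.2 - t * u z)‖ₑ ^ 2 := by
        rw [lintegral_const_mul _ hmm2.lintegral_prod_right']
    _ = (∫⁻ t, ‖K t‖ₑ) * ∫⁻ t, ∫⁻ z : ℝ × ℝ, ‖K t‖ₑ * ‖F (z.1 - t, z.2 - t * u z)‖ₑ ^ 2 := by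
        rw [lintegral_lintegral_swap hmm2.aemeasurable]
    _ ≤ (∫⁻ t, ‖K t‖ₑ) * ∫⁻ t, ‖K t‖ₑ * (2 * ∫⁻ z : ℝ × ℝ, ‖F z‖ₑ ^ 2) := by
        gcongr _ * ?_
        refine lintegral_mono fun t => ?_
        rw [lintegral_const_mul' _ _ enorm_ne_top]
        by_cases ht : |t| ≤ 1
        · gcongr
          exact lint_comp he hu ht (fun z => ‖F z‖ₑ ^ 2) (hF.1.measurable.enorm.pow_const 2)
        · rw [hK.supp t (not_le.1 ht).le]; simp
    _ ≤ ENNReal.ofReal m * (ENNReal.ofReal m * (2 * ∫⁻ z : ℝ × ℝ, ‖F z‖ₑ ^ 2)) := by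
        rw [lintegral_mul_const _ hKm.enorm]
        gcongr
    _ ≤ ENNReal.ofReal ((2 * m) ^ 2) * ∫⁻ z, ‖F z‖ₑ ^ 2 := by
        rw [← mul_assoc, ← mul_assoc]
        refine mul_le_mul_left ?_ _
        rw [mul_pow, ENNReal.ofReal_mul (by norm_num), ENNReal.ofReal_pow hm0]
        have h4 : ENNReal.ofReal (2 ^ 2) = 4 := by norm_num
        rw [h4, sq, mul_comm]
        refine mul_le_mul_left ?_ _
        norm_num

end Vale.Agent.P112.DEC
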