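import Vale.Agent.P112.H213.Last
import Vale.Agent.P112.S408.Link
import Vale.Agent.P112.S408.Unit

/-!
# P112: the band theorem at one frequency gives Stein's inequality
-/

set_option linter.unusedSectionVars false
set_option linter.unusedVariables false
set_option linter.style.haveILetI false

open MeasureTheory Set Filter Topology
open scoped ENNReal NNReal Interval ContDiff

namespace Vale.Agent.P112.DEC

/-- the kernel pieces of chapter T in terms of `TT` -/
theorem ker_T_eq {M : ℕ} (κ : T.Ker M) {u F : ℝ × ℝ → ℝ} (hF : CC2 F) (j : ℕ) (z : ℝ × ℝ) :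
    κ.T u j F z = TT (fun t => 2 ^ j * κ.K (2 ^ j * t)) u (cy κ.psi F) z := by
  have hψ : Continuous κ.psi :=
    (κ.smoothΦ.of_le (m := (M : ℕ∞)) (by exact_mod_cast le_top)).continuous_iteratedDeriv M le_rfl
  have hK := κ.smoothK.continuous
  have hFc := hF.1
  have hint : Integrable (fun ζ : ℝ × ℝ => κ.k j (u z) z ζ * F ζ) (volume.prod volume) := by
    have h1 : Continuous fun ζ : ℝ × ℝ => κ.k j (u z) z ζ * F ζ := by
      unfold T.Ker.k; fun_prop
    exact h1.integrable_of_hasCompactSupport hF.2.mul_left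
  unfold T.Ker.T
  rw [Measure.volume_eq_prod, integral_prod _ hint]
  rw [← integral_sub_left_eq_self _ volume z.1]
  unfold TT cy
  refine integral_congr_ae (Eventually.of_forall fun t => ?_)
  show ∫ y, κ.k j (u z) z (z.1 - t, y) * F (z.1 - t, y) =
    2 ^ j * κ.K (2 ^ j * t) * ∫ s, κ.psi s * F (z.1 - t, z.2 - t * u z - s)
  rw [← integral_sub_left_eq_self _ volume (z.2 - t * u z), ← integral_const_mul]
  refine integral_congr_ae (Eventually.of_forall fun s => ?_)
  show κ.k j (u z) z (z.1 - t, z.2 - t * u z - s) * F (z.1 - t, z.2 - t * u z - s) =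
    2 ^ j * κ.K (2 ^ j * t) * (κ.psi s * F (z.1 - t, z.2 - t * u z - s))
  unfold T.Ker.k
  have e1 : z.1 - (z.1 - t) = t := by ring
  have e2 : z.2 - (z.2 - t * u z - s) - t * u z = s := by ring
  simp only [e1, e2]
  ring

theorem bkAll_of_band {e : ℝ} (he : e ≤ 1 / 2) {M : ℕ} (h : BandBound e M) : BKAll e M := by
  intro K hK hodd hKs Φ hΦ hΦs
  obtain ⟨B, hB, H⟩ := h ⟨K, Φ, hK, hodd, hKs, hΦ, hΦs⟩
  refine ⟨B, hB, fun n u hu F hF => ?_⟩
  have h1 := H u hu.cont hu.bdd hu.lip n F hF.1 hF.2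
  set κ : T.Ker M := ⟨K, Φ, hK, hodd, hKs, hΦ, hΦs⟩ with hκ
  have hψ : Continuous κ.psi :=
    (κ.smoothΦ.of_le (m := (M : ℕ∞)) (by exact_mod_cast le_top)).continuous_iteratedDeriv M le_rfl
  have hψs : HasCompactSupport κ.psi := by
    have hit : ∀ n, ContDiff ℝ ∞ (iteratedDeriv n Φ) ∧ ∀ t, 1 ≤ |t| → iteratedDeriv n Φ t = 0 := by
      intro n
      induction n with
      | zero => simpa using ⟨hΦ, hΦs⟩
      | succ n ih =>
        rw [iteratedDeriv_succ]
        exact ⟨(contDiff_infty_iff_deriv.1 ih.1).2, deriv_zero_of_supp ih.1 ih.2⟩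
    exact HasCompactSupport.intro (K := Icc (-1) 1) isCompact_Icc fun t ht => (hit M).2 t (by
      rw [mem_Icc, ← abs_le, not_le] at ht; exact ht.le)
  have hc : CC2 (cy κ.psi F) := cy_CC2 ⟨hψ, hψs⟩ hF
  have hKj : ∀ j : ℕ, KOK (fun t => 2 ^ j * K (2 ^ j * t)) := by
    intro j
    refine ⟨by have := hK.continuous; fun_prop, fun t ht => ?_⟩
    rw [hKs, mul_zero]
    rw [abs_mul, abs_of_pos (by positivity : (0 : ℝ) < 2 ^ j)]
    have : (1 : ℝ) ≤ 2 ^ j := one_le_pow₀ (by norm_num)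
    nlinarith [abs_nonneg t]
  have h2 : ∀ n z, TT (fun t => ∑ j ∈ Finset.range n, 2 ^ j * K (2 ^ j * t)) u (cy κ.psi F) z =
      ∑ j ∈ Finset.range n, κ.T u j F z := by
    intro n z
    induction n with
    | zero => simp [TT]
    | succ n ih =>
      rw [Finset.sum_range_succ, ← ih, ker_T_eq κ hF n z]
      simp only [Finset.sum_range_succ]
      exact TT_add_left (KOK.of_ks hK hKs n) (hKj n) u hc.bm z
  have h3 : N (TT (fun t => ∑ j ∈ Finset.range n, 2 ^ j * K (2 ^ j * t)) u (cy κ.psi F)) ^ 2 ≤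
      (B * N F) ^ 2 := by
    rw [N_sq, mul_pow, N_sq]
    simpa only [h2] using h1
  exact le_of_sq_le_sq h3 (mul_nonneg hB (N_nonneg F))

/-- **The band theorem at frequency one gives the graph bound.** -/
theorem graphBound_of_band {e : ℝ≥0} (he : (e : ℝ) ≤ 1 / 2) {M : ℕ} (h : BandBound e M) :
    S408.GraphBound e :=
  S408.graphBound_of he (dec e.2 he (bkAll_of_band he h))

/-- **The band theorem at frequency one gives the whole of Q1** (strong and weak type, all scales
`a ≤ 1`, one constant). -/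
theorem stein_of_band {e : ℝ≥0} (he0 : 0 < e) (he : (e : ℝ) ≤ 1 / 2) {M : ℕ}
    (h : BandBound e M) :
    ∃ C : ℝ, 0 < C ∧ ∀ v : Plane → Plane, (∀ x, ‖v x‖ = 1) → LipschitzWith 1 v →
      ∀ a : ℝ, 0 < a → a ≤ 1 → StrongType v a C ∧ WeakType v a C :=
  S408.stein_of_graphBound he0 (graphBound_of_band he h)

end Vale.Agent.P112.DEC
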