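import Mathlib

/-!
# P112, gluing of the vertical frequency bands (DEC): definitions and one-variable statements

`hav j f y` is the average of `f` over the dyadic interval of length `2^(-j)` containing `y`.
-/

open MeasureTheory

namespace Vale.Agent.P112.DEC

/-- `⌊2^j y⌋` -/
noncomputable def dix (j : ℤ) (y : ℝ) : ℤ := ⌊(2 : ℝ) ^ j * y⌋

/-- left endpoint of the dyadic interval of length `2^(-j)` containing `y` -/
noncomputable def dl (j : ℤ) (y : ℝ) : ℝ := (dix j y : ℝ) * (2 : ℝ) ^ (-j)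

/-- right endpoint -/
noncomputable def dr (j : ℤ) (y : ℝ) : ℝ := ((dix j y : ℝ) + 1) * (2 : ℝ) ^ (-j)

/-- the average of `f` over the dyadic interval of length `2^(-j)` containing `y` -/
noncomputable def hav (j : ℤ) (f : ℝ → ℝ) (y : ℝ) : ℝ :=
  (2 : ℝ) ^ j * ∫ s in (dl j y)..(dr j y), f s

/-- bounded measurable functions with bounded support -/
structure BM (f : ℝ → ℝ) : Prop where
  meas : Measurable f
  bdd : ∃ M, ∀ y, |f y| ≤ M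
  supp : ∃ R, ∀ y, R ≤ |y| → f y = 0

/-- (H1) Poincaré -/
def H1 : Prop := ∀ (j : ℤ) (G g : ℝ → ℝ), BM G → BM g →
  (∀ y y', G y' - G y = ∫ s in y..y', g s) →
  ∫ y, (G y - hav j G y) ^ 2 ≤ ((2 : ℝ) ^ (-j)) ^ 2 * ∫ y, g y ^ 2

/-- (H2) averages of a derivative -/
def H2 : Prop := ∃ C : ℝ, 0 < C ∧ ∀ (j k : ℤ) (_ : j ≤ k) (G g : ℝ → ℝ), BM G → BM g →
  (∀ y y', G y' - G y = ∫ s in y..y', g s) →
  ∫ y, hav j g y ^ 2 ≤
    C * (2 : ℝ) ^ j * ((2 : ℝ) ^ k * (∫ y, G y ^ 2) + (2 : ℝ) ^ (-k) * ∫ y, g y ^ 2)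

/-- (H3a) orthogonality of the martingale differences -/
def H3a : Prop := ∀ (J : ℕ) (G : ℝ → ℝ), BM G →
  ∑ j ∈ Finset.Ico (-(J : ℤ)) J, ∫ y, (hav (j + 1) G y - hav j G y) ^ 2 ≤ ∫ y, G y ^ 2

/-- (H3b) completeness -/
def H3b : Prop := ∀ (G : ℝ → ℝ), Continuous G → BM G → ∀ B : ℝ,
  (∀ J : ℕ, ∑ j ∈ Finset.Ico (-(J : ℤ)) J, ∫ y, (hav (j + 1) G y - hav j G y) ^ 2 ≤ B) →
  ∫ y, G y ^ 2 ≤ B

/-- (H4) Carleson embedding for a bounded symbol: `h j` is constant on the dyadic intervals of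
length `2^(-j)` -/
def H4 : Prop := ∀ (J : ℕ) (b : ℝ → ℝ) (B : ℝ) (_ : Measurable b) (_ : ∀ y, |b y| ≤ B)
  (h : ℤ → ℝ → ℝ) (m : ℝ → ℝ) (_ : ∀ j y y', dix j y = dix j y' → h j y = h j y')
  (_ : ∀ j y, |h j y| ≤ m y) (_ : Measurable m) (_ : Integrable fun y => m y ^ 2),
  ∑ j ∈ Finset.Ico (-(J : ℤ)) J, ∫ y, ((hav (j + 1) b y - hav j b y) * h j y) ^ 2 ≤
    B ^ 2 * ∫ y, m y ^ 2

/-- convolution in the second variable -/
noncomputable def cy (ψ : ℝ → ℝ) (F : ℝ × ℝ → ℝ) (z : ℝ × ℝ) : ℝ := ∫ s, ψ s * F (z.1, z.2 - s)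

/-- `ψ_k = 2^k ψ (2^k ·)` -/
noncomputable def dil (k : ℤ) (ψ : ℝ → ℝ) (s : ℝ) : ℝ := (2 : ℝ) ^ k * ψ ((2 : ℝ) ^ k * s)

/-- continuous with compact support -/
def CC2 (F : ℝ × ℝ → ℝ) : Prop := Continuous F ∧ HasCompactSupport F

/-- (LP) Littlewood–Paley inequality in the second variable -/
def LP : Prop := ∀ ψ : ℝ → ℝ, ContDiff ℝ 1 ψ → HasCompactSupport ψ → ∫ s, ψ s = 0 →
  ∃ C : ℝ, 0 < C ∧ ∀ (S : Finset ℤ) (F : ℝ × ℝ → ℝ), CC2 F →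
    ∑ k ∈ S, ∫ z, cy (dil k ψ) F z ^ 2 ≤ C * ∫ z, F z ^ 2

end Vale.Agent.P112.DEC
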