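import Vale.Agent.P112.H213.Scale

/-!
# P112, DEC: the core estimate
-/

set_option linter.unusedSectionVars false
set_option linter.unusedVariables false
set_option linter.style.haveILetI false

open MeasureTheory Set
open scoped ENNReal NNReal Interval

namespace Vale.Agent.P112.DEC

/-! ## linearity of `TT` -/

theorem TT_mul_right (K : ℝ → ℝ) (u : ℝ × ℝ → ℝ) (c : ℝ) (F : ℝ × ℝ → ℝ) (z : ℝ × ℝ) :
    TT K u (fun w => c * F w) z = c * TT K u F z := by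
  simp only [TT, ← integral_const_mul]
  refine integral_congr_ae (Filter.Eventually.of_forall fun t => ?_)
  show K t * (c * F _) = c * (K t * F _)
  ring

theorem TT_add {K : ℝ → ℝ} (hK : KOK K) (u : ℝ × ℝ → ℝ) {F G : ℝ × ℝ → ℝ} (hF : BM2 F)
    (hG : BM2 G) (z : ℝ × ℝ) : TT K u (fun w => F w + G w) z = TT K u F z + TT K u G z := by
  rw [TT_eq_Icc hK, TT_eq_Icc hK, TT_eq_Icc hK, ← integral_add (TT_integrable hK hF z)
    (TT_integrable hK hG z)]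
  refine integral_congr_ae (Filter.Eventually.of_forall fun t => ?_)
  show K t * (F _ + G _) = K t * F _ + K t * G _
  ring

theorem TT_sub {K : ℝ → ℝ} (hK : KOK K) (u : ℝ × ℝ → ℝ) {F G : ℝ × ℝ → ℝ} (hF : BM2 F)
    (hG : BM2 G) (z : ℝ × ℝ) : TT K u (fun w => F w - G w) z = TT K u F z - TT K u G z := by
  have h := TT_add hK u (hF.sub hG) hG z
  have h2 : (fun w => F w - G w + G w) = F := by funext w; ring
  rw [h2] at h
  linarith

theorem TT_zero (K : ℝ → ℝ) (u : ℝ × ℝ → ℝ) (z : ℝ × ℝ) : TT K u (fun _ => 0) z = 0 := by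
  simp [TT]

theorem TT_sum {K : ℝ → ℝ} (hK : KOK K) (u : ℝ × ℝ → ℝ) {ι : Type*} (S : Finset ι)
    {F : ι → ℝ × ℝ → ℝ} (hF : ∀ i, BM2 (F i)) (z : ℝ × ℝ) :
    TT K u (fun w => ∑ i ∈ S, F i w) z = ∑ i ∈ S, TT K u (F i) z := by
  classical
  induction S using Finset.induction_on with
  | empty => simp [TT]
  | insert a s ha ih =>
    simp only [Finset.sum_insert ha]
    rw [TT_add hK u (hF a) (BM2.sum s fun i _ => hF i), ih]

/-! ## dilates and derivatives -/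

theorem contDiff_dil {ψ : ℝ → ℝ} (hψ : ContDiff ℝ 1 ψ) (k : ℤ) : ContDiff ℝ 1 (dil k ψ) := by
  unfold dil; fun_prop

theorem deriv_dil {ψ : ℝ → ℝ} (hψ : ContDiff ℝ 1 ψ) (k : ℤ) :
    deriv (dil k ψ) = fun s => (2 : ℝ) ^ k * dil k (deriv ψ) s := by
  funext s
  have h1 : HasDerivAt (fun s : ℝ => (2 : ℝ) ^ k * s) ((2 : ℝ) ^ k) s := by
    simpa using (hasDerivAt_id s).const_mul ((2 : ℝ) ^ k)
  have h2 : HasDerivAt ψ (deriv ψ ((2 : ℝ) ^ k * s)) ((2 : ℝ) ^ k * s) :=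
    (hψ.differentiable one_ne_zero _).hasDerivAt
  have h3 := (h2.comp s h1).const_mul ((2 : ℝ) ^ k)
  rw [show deriv (dil k ψ) s = (2 : ℝ) ^ k * (deriv ψ ((2 : ℝ) ^ k * s) * (2 : ℝ) ^ k) from h3.deriv]
  simp only [dil]; ring

theorem cy_mul_left (c : ℝ) (ψ : ℝ → ℝ) (F : ℝ × ℝ → ℝ) (z : ℝ × ℝ) :
    cy (fun s => c * ψ s) F z = c * cy ψ F z := by
  simp only [cy, ← integral_const_mul]
  refine integral_congr_ae (Filter.Eventually.of_forall fun s => ?_)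
  show c * ψ s * F _ = c * (ψ s * F _)
  ring

theorem DY.mul {H dH : ℝ × ℝ → ℝ} (h : DY H dH) (c : ℝ) :
    DY (fun z => c * H z) (fun z => c * dH z) :=
  ⟨h.cH.const_mul c, h.cd.const_mul c, fun x s => (h.der x s).const_mul c⟩

theorem DY_dil {ψ : ℝ → ℝ} (hψ : ContDiff ℝ 1 ψ) (hc : HasCompactSupport ψ) (k : ℤ)
    {G : ℝ × ℝ → ℝ} (hG : CC2 G) :
    DY (cy (dil k ψ) G) (fun z => (2 : ℝ) ^ k * cy (dil k (deriv ψ)) G z) := by
  have h1 := cy_DY (contDiff_dil hψ k) (CC1.dil ⟨hψ.continuous, hc⟩ k).2 hG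
  rw [deriv_dil hψ k] at h1
  have h2 : cy (fun s => (2 : ℝ) ^ k * dil k (deriv ψ) s) G =
      fun z => (2 : ℝ) ^ k * cy (dil k (deriv ψ)) G z := by
    funext z; exact cy_mul_left _ _ _ _
  rwa [h2] at h1

/-! ## the martingale differences -/

/-- martingale difference -/
noncomputable def Dj (j : ℤ) (f : ℝ × ℝ → ℝ) (z : ℝ × ℝ) : ℝ := hv (j + 1) f z - hv j f z

section Haar

variable (h1 : D1) (h7 : D7) (h10 : D10)

theorem hv_zero (h10 : D10) (j : ℤ) (z : ℝ × ℝ) : hv j (fun _ => 0) z = 0 := by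
  have := h10 j (fun _ => 0) (fun _ => 0) BM2.zero BM2.zero z
  simp only [add_zero] at this
  linarith

theorem Dj_bm (h1 : D1) (j : ℤ) {f : ℝ × ℝ → ℝ} (hf : BM2 f) : BM2 (Dj j f) :=
  (h1 (j + 1) f hf).sub (h1 j f hf)

theorem N_Dj_le (h1 : D1) (h7 : D7) (j : ℤ) {f : ℝ × ℝ → ℝ} (hf : BM2 f) : N (Dj j f) ≤ 2 * N f := by
  have := N_sub_le (h1 (j + 1) f hf) (h1 j f hf)
  have h2 := h7 (j + 1) f hf
  have h3 := h7 j f hf
  have h4 : N (Dj j f) = N (fun z => hv (j + 1) f z - hv j f z) := rfl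
  linarith

theorem Dj_add (h10 : D10) (j : ℤ) {f g : ℝ × ℝ → ℝ} (hf : BM2 f) (hg : BM2 g) (z : ℝ × ℝ) :
    Dj j (fun w => f w + g w) z = Dj j f z + Dj j g z := by
  unfold Dj
  rw [h10 (j + 1) f g hf hg, h10 j f g hf hg]; ring

theorem hv_sub (h10 : D10) (j : ℤ) {f g : ℝ × ℝ → ℝ} (hf : BM2 f) (hg : BM2 g) (z : ℝ × ℝ) :
    hv j (fun w => f w - g w) z = hv j f z - hv j g z := by
  have h := h10 j (fun w => f w - g w) g (hf.sub hg) hg z
  have h2 : (fun w => f w - g w + g w) = f := by funext w; ring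
  rw [h2] at h
  linarith

theorem Dj_sub (h10 : D10) (j : ℤ) {f g : ℝ × ℝ → ℝ} (hf : BM2 f) (hg : BM2 g) (z : ℝ × ℝ) :
    Dj j (fun w => f w - g w) z = Dj j f z - Dj j g z := by
  unfold Dj
  rw [hv_sub h10 (j + 1) hf hg, hv_sub h10 j hf hg]; ring

theorem hv_sum (h10 : D10) (j : ℤ) {ι : Type*} (S : Finset ι) {F : ι → ℝ × ℝ → ℝ}
    (hF : ∀ i, BM2 (F i)) (z : ℝ × ℝ) :
    hv j (fun w => ∑ i ∈ S, F i w) z = ∑ i ∈ S, hv j (F i) z := by
  classical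
  induction S using Finset.induction_on with
  | empty => simpa using hv_zero h10 j z
  | insert a s ha ih =>
    simp only [Finset.sum_insert ha]
    rw [h10 j _ _ (hF a) (BM2.sum s fun i _ => hF i), ih]

theorem Dj_sum (h10 : D10) (j : ℤ) {ι : Type*} (S : Finset ι) {F : ι → ℝ × ℝ → ℝ}
    (hF : ∀ i, BM2 (F i)) (z : ℝ × ℝ) :
    Dj j (fun w => ∑ i ∈ S, F i w) z = ∑ i ∈ S, Dj j (F i) z := by
  unfold Dj
  rw [hv_sum h10 (j + 1) S hF, hv_sum h10 j S hF, Finset.sum_sub_distrib]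

end Haar

/-! ## elementary inequalities for the weight -/

/-- `r = 1/√2` -/
noncomputable def rr : ℝ := (Real.sqrt 2)⁻¹

theorem rr_pos : 0 < rr := by unfold rr; positivity

theorem rr_sq : rr ^ 2 = 1 / 2 := by
  unfold rr; rw [inv_pow, Real.sq_sqrt (by norm_num)]; norm_num

theorem rr_le_one : rr ≤ 1 := by
  have h1 := rr_sq
  have h2 := rr_pos
  nlinarith

theorem one_le_two_rr : 1 ≤ 2 * rr := by
  have h1 := rr_sq
  have h2 := rr_pos
  nlinarith [sq_nonneg (2 * rr - 1)]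

theorem two_zpow_eq_rr (n : ℕ) : (2 : ℝ) ^ (-(n : ℤ)) = (rr ^ n) ^ 2 := by
  rw [← pow_mul, mul_comm, pow_mul, rr_sq, zpow_neg, zpow_natCast, one_div, inv_pow]

theorem two_zpow_le_rr (n : ℕ) : (2 : ℝ) ^ (-(n : ℤ)) ≤ rr ^ n := by
  rw [two_zpow_eq_rr]
  have h0 : 0 < rr ^ n := pow_pos rr_pos n
  have h1 : rr ^ n ≤ 1 := pow_le_one₀ rr_pos.le rr_le_one
  nlinarith

/-- the weight -/
noncomputable def wt (j k : ℤ) : ℝ := rr ^ (j - k).natAbs

theorem wt_pos (j k : ℤ) : 0 < wt j k := pow_pos rr_pos _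

theorem zpow_le_wt {j k : ℤ} (h : k ≤ j) : (2 : ℝ) ^ (k - j) ≤ wt j k := by
  have h1 : k - j = -((j - k).natAbs : ℤ) := by omega
  rw [h1]; exact two_zpow_le_rr _

theorem zpow_eq_wt {j k : ℤ} (h : j ≤ k) : (2 : ℝ) ^ (j - k) = wt j k ^ 2 := by
  have h1 : j - k = -((j - k).natAbs : ℤ) := by omega
  rw [h1, wt, two_zpow_eq_rr]

theorem wt_succ {j k : ℤ} (h : j + 1 ≤ k) : wt (j + 1) k ≤ 2 * wt j k := by
  have h1 : (j - k).natAbs = (j + 1 - k).natAbs + 1 := by omega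
  have h0 : 0 < rr ^ (j + 1 - k).natAbs := pow_pos rr_pos _
  unfold wt
  rw [h1, pow_succ]
  nlinarith [one_le_two_rr]

end Vale.Agent.P112.DEC
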