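import Vale.Agent.P112.T.Defs
import Vale.Agent.P112.H213.Core

/-!
# P112: the exact interface between the machine (one band) and the gluing of the bands
-/

open MeasureTheory

namespace Vale.Agent.P112.DEC

/-- The band theorem at frequency one: for all kernel data with `M` vanishing moments, uniformly in
the field `u` (continuous, bounded by an unspecified constant, `e`-Lipschitz in the second variable)
and in the number of scales. -/
def BandBound (e : ℝ) (M : ℕ) : Prop := ∀ κ : T.Ker M, ∃ B : ℝ, 0 ≤ B ∧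
  ∀ u : ℝ × ℝ → ℝ, Continuous u → (∃ U, ∀ z, |u z| ≤ U) →
    (∀ x y y', |u (x, y) - u (x, y')| ≤ e * |y - y'|) →
    ∀ (n : ℕ) (F : ℝ × ℝ → ℝ), Continuous F → HasCompactSupport F →
      ∫ z, (∑ j ∈ Finset.range n, κ.T u j F z) ^ 2 ≤ B ^ 2 * ∫ z, F z ^ 2

end Vale.Agent.P112.DEC
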