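import Vale.Agent.P112.H213.Ident

/-!
# P112, DEC: convolution in the second variable
-/

set_option linter.unusedSectionVars false
set_option linter.style.haveILetI false
set_option linter.unusedVariables false

open MeasureTheory Set
open scoped ENNReal NNReal Interval

namespace Vale.Agent.P112.DEC

/-- continuous with compact support, one variable -/
def CC1 (f : ℝ → ℝ) : Prop := Continuous f ∧ HasCompactSupport f

theorem CC1.exists_supp {f : ℝ → ℝ} (hf : CC1 f) : ∃ R, 0 ≤ R ∧ ∀ s, R ≤ |s| → f s = 0 := by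
  obtain ⟨R, hR⟩ := hf.2.isBounded.subset_closedBall (0 : ℝ)
  refine ⟨|R| + 1, by positivity, fun s hs => ?_⟩
  by_contra hcon
  have h1 : s ∈ Metric.closedBall (0 : ℝ) R := hR (subset_tsupport _ hcon)
  rw [mem_closedBall_zero_iff, Real.norm_eq_abs] at h1
  have := le_abs_self R
  linarith

theorem CC1.integrable {f : ℝ → ℝ} (hf : CC1 f) : Integrable f := hf.1.integrable_of_hasCompactSupport hf.2

theorem CC1.bdd {f : ℝ → ℝ} (hf : CC1 f) : ∃ M, ∀ s, |f s| ≤ M := by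
  obtain ⟨M, hM⟩ := hf.2.exists_bound_of_continuous hf.1
  exact ⟨M, fun s => by simpa using hM s⟩

theorem CC1.dil {f : ℝ → ℝ} (hf : CC1 f) (k : ℤ) : CC1 (dil k f) := by
  refine ⟨continuous_const.mul (hf.1.comp (continuous_const.mul continuous_id)), ?_⟩
  have h2 : (0 : ℝ) < (2 : ℝ) ^ k := by positivity
  have h1 : HasCompactSupport fun s : ℝ => f ((2 : ℝ) ^ k * s) := by
    have := hf.2.comp_homeomorph (Homeomorph.mulLeft₀ ((2 : ℝ) ^ k) h2.ne')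
    exact this
  exact h1.mul_left

/-- the mass of a kernel -/
noncomputable def L1 (ψ : ℝ → ℝ) : ℝ := ∫ s, |ψ s|

theorem L1_nonneg (ψ : ℝ → ℝ) : 0 ≤ L1 ψ := integral_nonneg fun _ => abs_nonneg _

theorem L1_dil (k : ℤ) (ψ : ℝ → ℝ) : L1 (dil k ψ) = L1 ψ := by
  have h2 : (0 : ℝ) < (2 : ℝ) ^ k := by positivity
  simp only [L1, dil, abs_mul, abs_of_pos h2, integral_const_mul]
  rw [Measure.integral_comp_mul_left (fun s => |ψ s|), abs_of_pos (inv_pos.2 h2), smul_eq_mul,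
    ← mul_assoc, mul_inv_cancel₀ h2.ne', one_mul]

theorem integral_dil (k : ℤ) (ψ : ℝ → ℝ) : ∫ s, dil k ψ s = ∫ s, ψ s := by
  have h2 : (0 : ℝ) < (2 : ℝ) ^ k := by positivity
  simp only [dil, integral_const_mul]
  rw [Measure.integral_comp_mul_left ψ, abs_of_pos (inv_pos.2 h2), smul_eq_mul,
    ← mul_assoc, mul_inv_cancel₀ h2.ne', one_mul]

theorem dil_dil (k j : ℤ) (ψ : ℝ → ℝ) : dil k (dil j ψ) = dil (k + j) ψ := by
  ext s
  simp only [dil]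
  rw [zpow_add₀ (by norm_num : (2 : ℝ) ≠ 0)]
  rw [show (2 : ℝ) ^ j * ((2 : ℝ) ^ k * s) = (2 : ℝ) ^ k * (2 : ℝ) ^ j * s by ring]
  ring

theorem cy_integrable {ψ : ℝ → ℝ} (hψ : CC1 ψ) {F : ℝ × ℝ → ℝ} (hF : BM2 F) (z : ℝ × ℝ) :
    Integrable fun s => ψ s * F (z.1, z.2 - s) := by
  obtain ⟨M, hM⟩ := hF.bdd
  refine (hψ.integrable.abs.mul_const M).mono' ?_ (Filter.Eventually.of_forall fun s => ?_)
  · have h1 := hF.meas
    have h2 := hψ.1.measurable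
    have h3 : Measurable fun s : ℝ => F (z.1, z.2 - s) := h1.comp (by fun_prop)
    exact (h2.mul h3).aestronglyMeasurable
  · rw [Real.norm_eq_abs, abs_mul]
    exact mul_le_mul_of_nonneg_left (hM _) (abs_nonneg _)

theorem cy_cont {ψ : ℝ → ℝ} (hψ : CC1 ψ) {F : ℝ × ℝ → ℝ} (hF : Continuous F) :
    Continuous (cy ψ F) := by
  obtain ⟨R, hR0, hR⟩ := hψ.exists_supp
  have h2 : cy ψ F = fun z => ∫ s in Icc (-R) R, ψ s * F (z.1, z.2 - s) := by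
    funext z
    rw [cy, setIntegral_eq_integral_of_forall_compl_eq_zero]
    intro s hs
    rw [mem_Icc, ← abs_le, not_le] at hs
    rw [hR s hs.le, zero_mul]
  rw [h2]
  refine continuous_parametric_integral_of_continuous
    (f := fun (z : ℝ × ℝ) (s : ℝ) => ψ s * F (z.1, z.2 - s)) ?_ isCompact_Icc
  have h3 := hψ.1
  show Continuous fun p : (ℝ × ℝ) × ℝ => ψ p.2 * F (p.1.1, p.1.2 - p.2)
  fun_prop

theorem cy_supp {ψ : ℝ → ℝ} {F : ℝ × ℝ → ℝ} {R R' : ℝ} (hR : ∀ s, R ≤ |s| → ψ s = 0)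
    (hR' : ∀ z : ℝ × ℝ, R' ≤ |z.1| ∨ R' ≤ |z.2| → F z = 0) (z : ℝ × ℝ)
    (hz : R' ≤ |z.1| ∨ R + R' ≤ |z.2|) : cy ψ F z = 0 := by
  rw [cy, ← integral_zero ℝ ℝ (μ := volume)]
  congr 1
  ext s
  by_cases hs : R ≤ |s|
  · rw [hR s hs, zero_mul]
  · push Not at hs
    rw [hR' (z.1, z.2 - s) ?_, mul_zero]
    refine hz.imp id fun h => ?_
    have := abs_sub_abs_le_abs_sub z.2 s
    show R' ≤ |z.2 - s|
    linarith

theorem cy_CC2 {ψ : ℝ → ℝ} (hψ : CC1 ψ) {F : ℝ × ℝ → ℝ} (hF : CC2 F) : CC2 (cy ψ F) := by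
  obtain ⟨R, hR0, hR⟩ := hψ.exists_supp
  obtain ⟨R', hR'⟩ := hF.bm.supp
  refine CC2.of_supp (cy_cont hψ hF.1) (R := R + |R'|) fun z hz => cy_supp hR (R' := |R'|)
    (fun z hz => hR' z (hz.imp (le_trans (le_abs_self _)) (le_trans (le_abs_self _)))) z ?_
  exact hz.imp (fun h => by linarith) id

theorem cy_DY {ψ : ℝ → ℝ} (hψ : ContDiff ℝ 1 ψ) (hc : HasCompactSupport ψ) {F : ℝ × ℝ → ℝ}
    (hF : CC2 F) : DY (cy ψ F) (cy (deriv ψ) F) := by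
  refine ⟨cy_CC2 ⟨hψ.continuous, hc⟩ hF, cy_CC2 ⟨hψ.continuous_deriv le_rfl, hc.deriv⟩ hF, ?_⟩
  intro x s
  have h1 : LocallyIntegrable (fun y => F (x, y)) volume :=
    (hF.1.comp (by fun_prop)).locallyIntegrable
  have h2 := hc.hasDerivAt_convolution_left (ContinuousLinearMap.mul ℝ ℝ) (μ := volume)
    (hf := hψ) h1 s
  exact h2

theorem enorm_cy_le {ψ : ℝ → ℝ} (F : ℝ × ℝ → ℝ) (z : ℝ × ℝ) :
    ‖cy ψ F z‖ₑ ≤ ∫⁻ s, ‖ψ s‖ₑ * ‖F (z.1, z.2 - s)‖ₑ := by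
  refine (enorm_integral_le_lintegral_enorm _).trans (le_of_eq ?_)
  exact lintegral_congr fun s => enorm_mul _ _

theorem lint_L1 {ψ : ℝ → ℝ} (hψ : CC1 ψ) : ∫⁻ s, ‖ψ s‖ₑ = ENNReal.ofReal (L1 ψ) := by
  rw [L1, ofReal_integral_eq_lintegral_ofReal hψ.integrable.abs
    (Filter.Eventually.of_forall fun _ => abs_nonneg _)]
  exact lintegral_congr fun s => Real.enorm_eq_ofReal_abs _

theorem N_cy_le {ψ : ℝ → ℝ} (hψ : CC1 ψ) {F : ℝ × ℝ → ℝ} (hF : CC2 F) :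
    N (cy ψ F) ≤ L1 ψ * N F := by
  refine N_le_of_lint (cy_CC2 hψ hF).bm hF.bm (L1_nonneg _) ?_
  have hFm := hF.1.measurable
  have hψm := hψ.1.measurable
  have hm : Measurable fun p : (ℝ × ℝ) × ℝ => ‖ψ p.2‖ₑ * ‖F (p.1.1, p.1.2 - p.2)‖ₑ ^ 2 := by
    have h1 : Measurable fun p : (ℝ × ℝ) × ℝ => F (p.1.1, p.1.2 - p.2) := hFm.comp (by fun_prop)
    exact (hψm.comp measurable_snd).enorm.mul (h1.enorm.pow_const 2)
  calc ∫⁻ z, ‖cy ψ F z‖ₑ ^ 2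
      ≤ ∫⁻ z : ℝ × ℝ, (∫⁻ s, ‖ψ s‖ₑ) * ∫⁻ s, ‖ψ s‖ₑ * ‖F (z.1, z.2 - s)‖ₑ ^ 2 := by
        refine lintegral_mono fun z => ?_
        refine (pow_le_pow_left' (enorm_cy_le F z) 2).trans ?_
        exact avg_cs _ _ hψm.enorm (hFm.comp (by fun_prop : Measurable fun s : ℝ => (z.1, z.2 - s))).enorm
    _ = (∫⁻ s, ‖ψ s‖ₑ) * ∫⁻ z : ℝ × ℝ, ∫⁻ s, ‖ψ s‖ₑ * ‖F (z.1, z.2 - s)‖ₑ ^ 2 := by
        rw [lintegral_const_mul _ hm.lintegral_prod_right']
    _ = (∫⁻ s, ‖ψ s‖ₑ) * ∫⁻ s, ∫⁻ z : ℝ × ℝ, ‖ψ s‖ₑ * ‖F (z.1, z.2 - s)‖ₑ ^ 2 := by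
        rw [lintegral_lintegral_swap hm.aemeasurable]
    _ = (∫⁻ s, ‖ψ s‖ₑ) * ∫⁻ s, ‖ψ s‖ₑ * ∫⁻ z : ℝ × ℝ, ‖F z‖ₑ ^ 2 := by
        congr 1
        refine lintegral_congr fun s => ?_
        rw [lintegral_const_mul' _ _ enorm_ne_top]
        congr 1
        have h2 : Measurable fun z : ℝ × ℝ => ‖F (z.1, z.2 - s)‖ₑ ^ 2 :=
          (hFm.comp (by fun_prop : Measurable fun z : ℝ × ℝ => (z.1, z.2 - s))).enorm.pow_const 2
        rw [Measure.volume_eq_prod, lintegral_prod _ h2.aemeasurable,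
          lintegral_prod _ (hFm.enorm.pow_const 2).aemeasurable]
        refine lintegral_congr fun x => ?_
        exact lintegral_sub_right_eq_self (fun y => ‖F (x, y)‖ₑ ^ 2) s
    _ = ENNReal.ofReal (L1 ψ ^ 2) * ∫⁻ z, ‖F z‖ₑ ^ 2 := by
        rw [lintegral_mul_const _ hψm.enorm, lint_L1 hψ, ENNReal.ofReal_pow (L1_nonneg _)]
        ring

/-! ## algebra -/

theorem cy_sub_left {ψ χ : ℝ → ℝ} (hψ : CC1 ψ) (hχ : CC1 χ) {F : ℝ × ℝ → ℝ} (hF : CC2 F)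
    (z : ℝ × ℝ) : cy (fun s => ψ s - χ s) F z = cy ψ F z - cy χ F z := by
  simp only [cy, sub_mul]
  exact integral_sub (cy_integrable hψ hF.bm z) (cy_integrable hχ hF.bm z)

theorem cy_add_right {ψ : ℝ → ℝ} (hψ : CC1 ψ) {F G : ℝ × ℝ → ℝ} (hF : CC2 F) (hG : CC2 G)
    (z : ℝ × ℝ) : cy ψ (fun w => F w + G w) z = cy ψ F z + cy ψ G z := by
  simp only [cy, mul_add]
  exact integral_add (cy_integrable hψ hF.bm z) (cy_integrable hψ hG.bm z)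

theorem cy_sub_right {ψ : ℝ → ℝ} (hψ : CC1 ψ) {F G : ℝ × ℝ → ℝ} (hF : CC2 F) (hG : CC2 G)
    (z : ℝ × ℝ) : cy ψ (fun w => F w - G w) z = cy ψ F z - cy ψ G z := by
  simp only [cy, mul_sub]
  exact integral_sub (cy_integrable hψ hF.bm z) (cy_integrable hψ hG.bm z)

theorem cy_mul_right (ψ : ℝ → ℝ) (c : ℝ) (F : ℝ × ℝ → ℝ) (z : ℝ × ℝ) :
    cy ψ (fun w => c * F w) z = c * cy ψ F z := by
  simp only [cy, ← integral_const_mul]
  refine integral_congr_ae (Filter.Eventually.of_forall fun s => ?_)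
  show ψ s * (c * F (z.1, z.2 - s)) = c * (ψ s * F (z.1, z.2 - s))
  ring

/-- iterated convolution -/
theorem cy_cy {ψ χ : ℝ → ℝ} (hψ : CC1 ψ) (hχ : CC1 χ) {F : ℝ × ℝ → ℝ} (hF : CC2 F) (z : ℝ × ℝ) :
    cy ψ (cy χ F) z = ∫ s, ∫ r, ψ s * χ r * F (z.1, z.2 - s - r) := by
  simp only [cy, ← integral_const_mul]
  refine integral_congr_ae (Filter.Eventually.of_forall fun s => ?_)
  refine integral_congr_ae (Filter.Eventually.of_forall fun r => ?_)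
  show ψ s * (χ r * F (z.1, z.2 - s - r)) = ψ s * χ r * F (z.1, z.2 - s - r)
  ring

theorem cy2_integrable {ψ χ : ℝ → ℝ} (hψ : CC1 ψ) (hχ : CC1 χ) {F : ℝ × ℝ → ℝ} (hF : CC2 F)
    (z : ℝ × ℝ) : Integrable (fun p : ℝ × ℝ => ψ p.1 * χ p.2 * F (z.1, z.2 - p.1 - p.2))
      (volume.prod volume) := by
  obtain ⟨M, hM⟩ := hF.bm.bdd
  have h := hψ.integrable.abs.mul_prod hχ.integrable.abs
  refine (h.mul_const M).mono' ?_ (Filter.Eventually.of_forall fun p => ?_)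
  · have h1 := hF.1
    have h2 := hψ.1
    have h3 := hχ.1
    have h4 : Continuous fun p : ℝ × ℝ => ψ p.1 * χ p.2 * F (z.1, z.2 - p.1 - p.2) := by fun_prop
    exact h4.aestronglyMeasurable
  · rw [Real.norm_eq_abs, abs_mul, abs_mul]
    exact mul_le_mul_of_nonneg_left (hM _) (by positivity)

theorem cy_comm {ψ χ : ℝ → ℝ} (hψ : CC1 ψ) (hχ : CC1 χ) {F : ℝ × ℝ → ℝ} (hF : CC2 F)
    (z : ℝ × ℝ) : cy ψ (cy χ F) z = cy χ (cy ψ F) z := by
  rw [cy_cy hψ hχ hF, cy_cy hχ hψ hF, integral_integral_swap (cy2_integrable hψ hχ hF z)]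
  refine integral_congr_ae (Filter.Eventually.of_forall fun s => ?_)
  refine integral_congr_ae (Filter.Eventually.of_forall fun r => ?_)
  show ψ r * χ s * F (z.1, z.2 - r - s) = χ s * ψ r * F (z.1, z.2 - s - r)
  rw [sub_right_comm]; ring

/-- convolution of kernels -/
noncomputable def cv (ψ χ : ℝ → ℝ) (s : ℝ) : ℝ := ∫ r, ψ r * χ (s - r)

theorem cv_eq (ψ χ : ℝ → ℝ) : cv ψ χ = convolution ψ χ (ContinuousLinearMap.mul ℝ ℝ) volume := rfl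

theorem cv_CC1 {ψ χ : ℝ → ℝ} (hψ : CC1 ψ) (hχ : CC1 χ) : CC1 (cv ψ χ) := by
  rw [cv_eq]
  exact ⟨hψ.2.continuous_convolution_left _ hψ.1 hχ.1.locallyIntegrable,
    hψ.2.convolution _ hχ.2⟩

theorem cv_contDiff {ψ χ : ℝ → ℝ} (hψ : ContDiff ℝ 1 ψ) (hc : HasCompactSupport ψ) (hχ : CC1 χ) :
    ContDiff ℝ 1 (cv ψ χ) := by
  rw [cv_eq]
  exact hc.contDiff_convolution_left _ hψ hχ.1.locallyIntegrable

theorem cy_cv {ψ χ : ℝ → ℝ} (hψ : CC1 ψ) (hχ : CC1 χ) {F : ℝ × ℝ → ℝ} (hF : CC2 F)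
    (z : ℝ × ℝ) : cy (cv ψ χ) F z = cy ψ (cy χ F) z := by
  obtain ⟨M, hM⟩ := hF.bm.bdd
  rw [cy_cy hψ hχ hF]
  have h1 : ∀ s, (∫ r, ψ s * χ r * F (z.1, z.2 - s - r)) =
      ∫ r, ψ s * χ (r - s) * F (z.1, z.2 - r) := by
    intro s
    rw [← integral_sub_right_eq_self (fun r => ψ s * χ r * F (z.1, z.2 - s - r)) s]
    refine integral_congr_ae (Filter.Eventually.of_forall fun r => ?_)
    show ψ s * χ (r - s) * F (z.1, z.2 - s - (r - s)) = ψ s * χ (r - s) * F (z.1, z.2 - r)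
    rw [show z.2 - s - (r - s) = z.2 - r by ring]
  simp_rw [h1]
  have hi : Integrable (fun p : ℝ × ℝ => ψ p.1 * χ (p.2 - p.1) * F (z.1, z.2 - p.2))
      (volume.prod volume) := by
    obtain ⟨R, hR0, hR⟩ := hψ.exists_supp
    obtain ⟨R', hR'0, hR'⟩ := hχ.exists_supp
    have h4 : Continuous fun p : ℝ × ℝ => ψ p.1 * χ (p.2 - p.1) * F (z.1, z.2 - p.2) := by
      have h1 := hF.1
      have h2 := hψ.1
      have h3 := hχ.1
      fun_prop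
    refine h4.integrable_of_hasCompactSupport ?_
    refine HasCompactSupport.intro (K := Icc (-(R)) R ×ˢ Icc (-(R + R')) (R + R'))
      (isCompact_Icc.prod isCompact_Icc) fun p hp => ?_
    rw [mem_prod, mem_Icc, mem_Icc, ← abs_le, ← abs_le, not_and_or, not_le, not_le] at hp
    by_cases h5 : R ≤ |p.1|
    · rw [hR _ h5]; ring
    · push Not at h5
      have h6 : R + R' < |p.2| := by
        rcases hp with hp | hp
        · exact absurd hp.le (not_le.2 h5)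
        · exact hp
      rw [hR' (p.2 - p.1) (by
        have := abs_sub_abs_le_abs_sub p.2 p.1
        linarith)]
      ring
  rw [integral_integral_swap hi]
  simp only [cy, cv, ← integral_mul_const]

theorem CC1.sub {ψ χ : ℝ → ℝ} (hψ : CC1 ψ) (hχ : CC1 χ) : CC1 (fun s => ψ s - χ s) :=
  ⟨hψ.1.sub hχ.1, by
    have := hψ.2.add hχ.2.neg
    rw [← sub_eq_add_neg] at this
    exact this⟩

end Vale.Agent.P112.DEC
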