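import Vale.Agent.P112.H213.Conv

/-!
# P112, DEC: exact statements of the remaining pieces (two-dimensional forms)
-/

open MeasureTheory Set Filter Topology

namespace Vale.Agent.P112.DEC

/-- dyadic average in the second variable -/
noncomputable def hv (j : ℤ) (f : ℝ × ℝ → ℝ) (z : ℝ × ℝ) : ℝ := hav j (fun s => f (z.1, s)) z.2

/-- (D1) -/
def D1 : Prop := ∀ (j : ℤ) (f : ℝ × ℝ → ℝ), BM2 f → BM2 (hv j f)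

/-- (D2) = H1 -/
def D2 : Prop := ∀ (j : ℤ) (G g : ℝ × ℝ → ℝ), BM2 G → BM2 g →
  (∀ x y y', G (x, y') - G (x, y) = ∫ s in y..y', g (x, s)) →
  N (fun z => G z - hv j G z) ≤ (2 : ℝ) ^ (-j) * N g

/-- (D3) = H2 -/
def D3 : Prop := ∃ C : ℝ, 0 < C ∧ ∀ (j k : ℤ) (_ : j ≤ k) (G g : ℝ × ℝ → ℝ), BM2 G → BM2 g →
  (∀ x y y', G (x, y') - G (x, y) = ∫ s in y..y', g (x, s)) →
  N (hv j g) ^ 2 ≤ C * (2 : ℝ) ^ j * ((2 : ℝ) ^ k * N G ^ 2 + (2 : ℝ) ^ (-k) * N g ^ 2)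

/-- (D4) = H3a -/
def D4 : Prop := ∀ (J : ℕ) (G : ℝ × ℝ → ℝ), BM2 G →
  ∑ j ∈ Finset.Ico (-(J : ℤ)) J, N (fun z => hv (j + 1) G z - hv j G z) ^ 2 ≤ N G ^ 2

/-- (D5) = H3b -/
def D5 : Prop := ∀ (G : ℝ × ℝ → ℝ), CC2 G → ∀ B : ℝ,
  (∀ J : ℕ, ∑ j ∈ Finset.Ico (-(J : ℤ)) J, N (fun z => hv (j + 1) G z - hv j G z) ^ 2 ≤ B) →
  N G ^ 2 ≤ B

/-- (D6) = H4 -/
def D6 : Prop := ∀ (J : ℕ) (b : ℝ × ℝ → ℝ) (e : ℝ) (_ : Measurable b) (_ : ∀ z, |b z| ≤ e)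
  (h : ℤ → ℝ × ℝ → ℝ) (m : ℝ × ℝ → ℝ) (_ : ∀ j, BM2 (h j)) (_ : BM2 m)
  (_ : ∀ j x y y', dix j y = dix j y' → h j (x, y) = h j (x, y')) (_ : ∀ j z, |h j z| ≤ m z),
  ∑ j ∈ Finset.Ico (-(J : ℤ)) J, N (fun z => (hv (j + 1) b z - hv j b z) * h j z) ^ 2 ≤
    e ^ 2 * N m ^ 2

/-- (D7) contraction -/
def D7 : Prop := ∀ (j : ℤ) (f : ℝ × ℝ → ℝ), BM2 f → N (hv j f) ≤ N f

/-- (D8) pull-out -/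
def D8 : Prop := ∀ (j i : ℤ) (_ : j ≤ i) (b h : ℝ × ℝ → ℝ) (e : ℝ), Measurable b →
  (∀ z, |b z| ≤ e) → BM2 h → (∀ x y y', dix j y = dix j y' → h (x, y) = h (x, y')) →
  ∀ z, hv i (fun w => b w * h w) z = hv i b z * h z

/-- (D9) -/
def D9 : Prop := ∀ (j : ℤ) (f g : ℝ × ℝ → ℝ), BM2 f → BM2 g → (∀ z, |f z| ≤ g z) →
  ∀ z, |hv j f z| ≤ hv j g z

/-- (D10) linearity -/
def D10 : Prop := ∀ (j : ℤ) (f g : ℝ × ℝ → ℝ), BM2 f → BM2 g →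
  ∀ z, hv j (fun w => f w + g w) z = hv j f z + hv j g z

/-- (D11) `hv j f` is constant on the dyadic intervals of length `2^(-j)` -/
def D11 : Prop := ∀ (j : ℤ) (f : ℝ × ℝ → ℝ) (x y y' : ℝ), dix j y = dix j y' →
  hv j f (x, y) = hv j f (x, y')

/-- (KERM) the kernels: an approximate identity `φ` such that `φ_1 - φ` has `M + 1` vanishing
moments (it is the derivative of order `M + 1` of a test function `X`) -/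
def KERM : Prop := ∀ M : ℕ, ∃ φ X : ℝ → ℝ, ContDiff ℝ (⊤ : ℕ∞) φ ∧ (∀ t, 1 ≤ |t| → φ t = 0) ∧
  ∫ s, φ s = 1 ∧ ContDiff ℝ (⊤ : ℕ∞) X ∧ (∀ t, 1 ≤ |t| → X t = 0) ∧
  ∀ s, iteratedDeriv (M + 1) X s = dil 1 φ s - φ s

/-- (LIM1) -/
def LIM1 : Prop := ∀ (φ : ℝ → ℝ), CC1 φ → ∫ s, φ s = 1 → ∀ F : ℝ × ℝ → ℝ, CC2 F →
  Tendsto (fun M : ℕ => N (fun z => F z - cy (dil M φ) F z)) atTop (𝓝 0)

/-- (LIM2) -/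
def LIM2 : Prop := ∀ (φ : ℝ → ℝ), CC1 φ → ∀ F : ℝ × ℝ → ℝ, CC2 F →
  Tendsto (fun M : ℕ => N (cy (dil (-(M : ℤ)) φ) F)) atTop (𝓝 0)

/-- (MX1) vertical maximal function of smooth averages -/
def MX1 : Prop := ∀ (φ : ℝ → ℝ), CC1 φ → ∃ C : ℝ, 0 < C ∧ ∀ (F : ℝ × ℝ → ℝ), CC2 F →
  ∀ G : ℝ × ℝ → ℝ, BM2 G → (∀ z, ∃ k : ℤ, |G z| ≤ |cy (dil k φ) F z|) → N G ≤ C * N F

/-- (MX2) vertical dyadic maximal function -/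
def MX2 : Prop := ∃ C : ℝ, 0 < C ∧ ∀ (f : ℝ × ℝ → ℝ), BM2 f → (∀ z, 0 ≤ f z) →
  ∀ G : ℝ × ℝ → ℝ, BM2 G → (∀ z, ∃ j : ℤ, |G z| ≤ hv j f z) → N G ≤ C * N f

/-- (SCH) Schur sums, `r = 1/√2` -/
def SCH : Prop := ∃ C : ℝ, 0 < C ∧ ∀ (T S : Finset ℤ) (a : ℤ → ℝ), (∀ k, 0 ≤ a k) →
  ∑ j ∈ T, (∑ k ∈ S, (Real.sqrt 2)⁻¹ ^ (j - k).natAbs * a k) ^ 2 ≤ C * ∑ k ∈ S, a k ^ 2

end Vale.Agent.P112.DEC
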