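import Vale.Agent.P112.H213.Core
import Vale.Agent.P112.H889.D2D
import Vale.Agent.P112.H889.Sch

/-!
# P112, DEC: the core estimate, one band
-/

set_option linter.unusedSectionVars false
set_option linter.unusedVariables false
set_option linter.style.haveILetI false

open MeasureTheory Set
open scoped ENNReal NNReal Interval

namespace Vale.Agent.P112.DEC

/-- data for the core estimate -/
structure CoreData (K : ℝ → ℝ) (e : ℝ) (Ψ ψ : ℝ → ℝ) (B : ℝ) : Prop where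
  e0 : 0 ≤ e
  e1 : e ≤ 1 / 2
  kok : KOK K
  kt : ∀ t, |t * K t| ≤ 1
  B0 : 0 ≤ B
  cΨ : ContDiff ℝ 1 Ψ
  sΨ : HasCompactSupport Ψ
  cψ : ContDiff ℝ 1 ψ
  sψ : HasCompactSupport ψ
  dΨ : deriv Ψ = ψ
  b1 : BK K e Ψ B
  b2 : BK K e ψ B
  b3 : BK K e (deriv ψ) B

variable {K : ℝ → ℝ} {e : ℝ} {Ψ ψ : ℝ → ℝ} {B : ℝ} {u : ℝ × ℝ → ℝ}

/-- the band component -/
noncomputable def Fk (ψ : ℝ → ℝ) (k : ℤ) (G : ℝ × ℝ → ℝ) : ℝ × ℝ → ℝ := cy (dil k ψ) G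

/-- its derivative -/
noncomputable def dFk (ψ : ℝ → ℝ) (k : ℤ) (G : ℝ × ℝ → ℝ) : ℝ × ℝ → ℝ :=
  fun z => (2 : ℝ) ^ k * cy (dil k (deriv ψ)) G z

/-- its primitive -/
noncomputable def Hk (Ψ : ℝ → ℝ) (k : ℤ) (G : ℝ × ℝ → ℝ) : ℝ × ℝ → ℝ :=
  fun z => (2 : ℝ) ^ (-k) * cy (dil k Ψ) G z

/-- the vertical derivative of `TT K u F`, `dF` being the one of `F` -/
noncomputable def dT (K : ℝ → ℝ) (u : ℝ × ℝ → ℝ) (dF : ℝ × ℝ → ℝ) : ℝ × ℝ → ℝ :=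
  fun z => TT K u dF z - bu u z * TT (fun t => t * K t) u dF z

namespace CoreData

variable (c : CoreData K e Ψ ψ B)
include c

theorem cc1 : CC1 ψ := ⟨c.cψ.continuous, c.sψ⟩
theorem ccΨ : CC1 Ψ := ⟨c.cΨ.continuous, c.sΨ⟩
theorem ccd : CC1 (deriv ψ) := ⟨c.cψ.continuous_deriv le_rfl, c.sψ.deriv⟩

theorem dyF (k : ℤ) {G : ℝ × ℝ → ℝ} (hG : CC2 G) : DY (Fk ψ k G) (dFk ψ k G) :=
  DY_dil c.cψ c.sψ k hG

theorem dyH (k : ℤ) {G : ℝ × ℝ → ℝ} (hG : CC2 G) : DY (Hk Ψ k G) (Fk ψ k G) := by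
  have h := (DY_dil c.cΨ c.sΨ k hG).mul ((2 : ℝ) ^ (-k))
  rw [c.dΨ] at h
  have h2 : (fun z => (2 : ℝ) ^ (-k) * ((2 : ℝ) ^ k * cy (dil k ψ) G z)) = Fk ψ k G := by
    funext z
    rw [← mul_assoc, zpow_mul_neg, one_mul]; rfl
  rwa [h2] at h

theorem n1 (hu : UOK e u) (k : ℤ) {G : ℝ × ℝ → ℝ} (hG : CC2 G) :
    N (TT K u (Fk ψ k G)) ≤ B * N G := c.b2.scale c.kok c.e1 c.cc1 k u hu G hG

theorem n2 (hu : UOK e u) (k : ℤ) {G : ℝ × ℝ → ℝ} (hG : CC2 G) :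
    N (TT K u (Hk Ψ k G)) ≤ (2 : ℝ) ^ (-k) * (B * N G) := by
  have h1 : TT K u (Hk Ψ k G) = fun z => (2 : ℝ) ^ (-k) * TT K u (cy (dil k Ψ) G) z := by
    funext z; exact TT_mul_right _ _ _ _ _
  rw [h1, N_const_mul, abs_of_pos (two_zpow_pos _)]
  exact mul_le_mul_of_nonneg_left (c.b1.scale c.kok c.e1 c.ccΨ k u hu G hG) (two_zpow_pos _).le

theorem n3 (hu : UOK e u) (k : ℤ) {G : ℝ × ℝ → ℝ} (hG : CC2 G) :
    N (TT K u (dFk ψ k G)) ≤ (2 : ℝ) ^ k * (B * N G) := by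
  have h1 : TT K u (dFk ψ k G) = fun z => (2 : ℝ) ^ k * TT K u (cy (dil k (deriv ψ)) G) z := by
    funext z; exact TT_mul_right _ _ _ _ _
  rw [h1, N_const_mul, abs_of_pos (two_zpow_pos _)]
  exact mul_le_mul_of_nonneg_left (c.b3.scale c.kok c.e1 c.ccd k u hu G hG) (two_zpow_pos _).le

theorem ktt (t : ℝ) : |t * (t * K t)| ≤ 1 := by
  by_cases ht : 1 ≤ |t|
  · rw [c.kok.supp t ht]; simp
  · rw [abs_mul]
    calc |t| * |t * K t| ≤ 1 * 1 :=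
          mul_le_mul (not_le.1 ht).le (c.kt t) (abs_nonneg _) zero_le_one
      _ = 1 := one_mul 1

theorem nF (k : ℤ) {G : ℝ × ℝ → ℝ} (hG : CC2 G) : N (Fk ψ k G) ≤ L1 ψ * N G := by
  have := N_cy_le (c.cc1.dil k) hG
  rwa [L1_dil] at this

theorem ndF (k : ℤ) {G : ℝ × ℝ → ℝ} (hG : CC2 G) :
    N (dFk ψ k G) ≤ (2 : ℝ) ^ k * (L1 (deriv ψ) * N G) := by
  have := N_cy_le (c.ccd.dil k) hG
  rw [L1_dil] at this
  have h1 : N (dFk ψ k G) = (2 : ℝ) ^ k * N (cy (dil k (deriv ψ)) G) := by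
    have h2 : N (dFk ψ k G) = N (fun z => (2 : ℝ) ^ k * cy (dil k (deriv ψ)) G z) := rfl
    rw [h2, N_const_mul, abs_of_pos (two_zpow_pos _)]
  rw [h1]
  exact mul_le_mul_of_nonneg_left this (two_zpow_pos _).le

theorem nA (hu : UOK e u) {F : ℝ × ℝ → ℝ} (hF : CC2 F) :
    N (TT (fun t => t * K t) u F) ≤ 3 * N F := by
  have := N_TT_le c.kok.mulT c.kt c.e1 hu hF
  linarith

theorem nA2 (hu : UOK e u) {F : ℝ × ℝ → ℝ} (hF : CC2 F) :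
    N (TT (fun t => t * (t * K t)) u F) ≤ 3 * N F := by
  have := N_TT_le c.kok.mulT.mulT c.ktt c.e1 hu hF
  linarith

theorem bmT (hu : UOK e u) {F : ℝ × ℝ → ℝ} (hF : CC2 F) : BM2 (TT K u F) :=
  (TT_supp c.kok c.e1 hu hF).bm

theorem bmA (hu : UOK e u) {F : ℝ × ℝ → ℝ} (hF : CC2 F) : BM2 (TT (fun t => t * K t) u F) :=
  (TT_supp c.kok.mulT c.e1 hu hF).bm

theorem bmbA (hu : UOK e u) {F : ℝ × ℝ → ℝ} (hF : BM2 F) : BM2 (fun z => bu u z * F z) :=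
  hF.mul_bdd (measurable_bu hu.cont) (abs_bu_le c.e0 hu)

theorem NbA (hu : UOK e u) {F : ℝ × ℝ → ℝ} (hF : BM2 F) : N (fun z => bu u z * F z) ≤ e * N F :=
  N_mul_le hF c.e0 (abs_bu_le c.e0 hu)

theorem bmdT (hu : UOK e u) {F : ℝ × ℝ → ℝ} (hF : CC2 F) : BM2 (dT K u F) :=
  (c.bmT hu hF).sub (c.bmbA hu (c.bmA hu hF))

theorem bmdA (hu : UOK e u) {F : ℝ × ℝ → ℝ} (hF : CC2 F) : BM2 (dT (fun t => t * K t) u F) :=
  (c.bmA hu hF).sub (c.bmbA hu (TT_supp c.kok.mulT.mulT c.e1 hu hF).bm)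

/-- `N (∂ T F_k)` -/
theorem m1 (hu : UOK e u) (k : ℤ) {G : ℝ × ℝ → ℝ} (hG : CC2 G) :
    N (dT K u (dFk ψ k G)) ≤ (2 : ℝ) ^ k * ((B + 3 * L1 (deriv ψ)) * N G) := by
  have hd := (c.dyF k hG).cd
  have h1 := N_sub_le (c.bmT hu hd) (c.bmbA hu (c.bmA hu hd))
  have h2 := c.n3 hu k hG
  have h3 := c.NbA hu (c.bmA hu hd)
  have h4 := c.nA hu hd
  have h5 := c.ndF k hG
  have h6 : 0 ≤ N (TT (fun t => t * K t) u (dFk ψ k G)) := N_nonneg _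
  have h7 : e * N (TT (fun t => t * K t) u (dFk ψ k G)) ≤
      1 * N (TT (fun t => t * K t) u (dFk ψ k G)) :=
    mul_le_mul_of_nonneg_right (by linarith [c.e1]) h6
  have h8 : N (dT K u (dFk ψ k G)) =
      N (fun z => TT K u (dFk ψ k G) z - bu u z * TT (fun t => t * K t) u (dFk ψ k G) z) := rfl
  rw [h8]
  nlinarith

/-- `N (∂ T H_k)` -/
theorem m2 (hu : UOK e u) (k : ℤ) {G : ℝ × ℝ → ℝ} (hG : CC2 G) :
    N (dT K u (Fk ψ k G)) ≤ (B + 3 * L1 ψ) * N G := by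
  have hd := (c.dyF k hG).cH
  have h1 := N_sub_le (c.bmT hu hd) (c.bmbA hu (c.bmA hu hd))
  have h2 := c.n1 hu k hG
  have h3 := c.NbA hu (c.bmA hu hd)
  have h4 := c.nA hu hd
  have h5 := c.nF k hG
  have h6 : 0 ≤ N (TT (fun t => t * K t) u (Fk ψ k G)) := N_nonneg _
  have h7 : e * N (TT (fun t => t * K t) u (Fk ψ k G)) ≤
      1 * N (TT (fun t => t * K t) u (Fk ψ k G)) :=
    mul_le_mul_of_nonneg_right (by linarith [c.e1]) h6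
  have h8 : N (dT K u (Fk ψ k G)) =
      N (fun z => TT K u (Fk ψ k G) z - bu u z * TT (fun t => t * K t) u (Fk ψ k G) z) := rfl
  rw [h8]
  nlinarith

/-- `N (∂ A F_k)` -/
theorem m3 (hu : UOK e u) (k : ℤ) {G : ℝ × ℝ → ℝ} (hG : CC2 G) :
    N (dT (fun t => t * K t) u (dFk ψ k G)) ≤ (2 : ℝ) ^ k * (6 * L1 (deriv ψ) * N G) := by
  have hd := (c.dyF k hG).cd
  have h0 := (TT_supp c.kok.mulT.mulT c.e1 hu hd).bm
  have h1 := N_sub_le (c.bmA hu hd) (c.bmbA hu h0)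
  have h3 := c.NbA hu h0
  have h4 := c.nA hu hd
  have h4' := c.nA2 hu hd
  have h5 := c.ndF k hG
  have h6 : 0 ≤ N (TT (fun t => t * (t * K t)) u (dFk ψ k G)) := N_nonneg _
  have h7 : e * N (TT (fun t => t * (t * K t)) u (dFk ψ k G)) ≤
      1 * N (TT (fun t => t * (t * K t)) u (dFk ψ k G)) :=
    mul_le_mul_of_nonneg_right (by linarith [c.e1]) h6
  have h8 : N (dT (fun t => t * K t) u (dFk ψ k G)) =
      N (fun z => TT (fun t => t * K t) u (dFk ψ k G) z -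
        bu u z * TT (fun t => t * (t * K t)) u (dFk ψ k G) z) := rfl
  rw [h8]
  nlinarith

/-- (i) high output -/
theorem hi (hu : UOK e u) {j k : ℤ} (hjk : k ≤ j) {G : ℝ × ℝ → ℝ} (hG : CC2 G) :
    N (Dj j (TT K u (Fk ψ k G))) ≤ 2 * (B + 3 * L1 (deriv ψ)) * (wt j k * N G) := by
  have hd := c.dyF k hG
  have hT := c.bmT hu hd.cH
  have hdT := c.bmdT hu hd.cd
  have hid : ∀ x y y', TT K u (Fk ψ k G) (x, y') - TT K u (Fk ψ k G) (x, y) =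
      ∫ s in y..y', dT K u (dFk ψ k G) (x, s) := fun x y y' => ident c.kok c.e0 hu hd x y y'
  have h1 := d2 j _ _ hT hdT hid
  have h2 := d2 (j + 1) _ _ hT hdT hid
  have h3 := N_sub_le (hT.sub (d1 j _ hT)) (hT.sub (d1 (j + 1) _ hT))
  have h4 : (fun z => TT K u (Fk ψ k G) z - hv j (TT K u (Fk ψ k G)) z -
      (TT K u (Fk ψ k G) z - hv (j + 1) (TT K u (Fk ψ k G)) z)) = Dj j (TT K u (Fk ψ k G)) := by
    funext z; unfold Dj; ring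
  rw [h4] at h3
  have h5 := c.m1 hu k hG
  have h6 : (2 : ℝ) ^ (-(j + 1)) ≤ (2 : ℝ) ^ (-j) :=
    zpow_le_zpow_right₀ (by norm_num) (by omega)
  have h7 := N_nonneg (dT K u (dFk ψ k G))
  have h8 : N (Dj j (TT K u (Fk ψ k G))) ≤ 2 * ((2 : ℝ) ^ (-j) * N (dT K u (dFk ψ k G))) := by
    have := mul_le_mul_of_nonneg_right h6 h7
    linarith
  have h9 : (2 : ℝ) ^ (-j) * N (dT K u (dFk ψ k G)) ≤
      (2 : ℝ) ^ (k - j) * ((B + 3 * L1 (deriv ψ)) * N G) := by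
    have h10 : (2 : ℝ) ^ (k - j) = (2 : ℝ) ^ (-j) * (2 : ℝ) ^ k := by
      rw [← zpow_add₀ (by norm_num : (2 : ℝ) ≠ 0)]; congr 1; ring
    rw [h10, mul_assoc]
    exact mul_le_mul_of_nonneg_left h5 (two_zpow_pos _).le
  have h11 : 0 ≤ (B + 3 * L1 (deriv ψ)) * N G :=
    mul_nonneg (by linarith [c.B0, L1_nonneg (deriv ψ)]) (N_nonneg _)
  have h12 := mul_le_mul_of_nonneg_right (zpow_le_wt hjk) h11
  calc N (Dj j (TT K u (Fk ψ k G))) ≤ 2 * ((2 : ℝ) ^ (-j) * N (dT K u (dFk ψ k G))) := h8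
    _ ≤ 2 * (wt j k * ((B + 3 * L1 (deriv ψ)) * N G)) := by linarith
    _ = _ := by ring

/-- (iii') -/
theorem hi' (hu : UOK e u) {j k : ℤ} (hjk : k ≤ j) {G : ℝ × ℝ → ℝ} (hG : CC2 G) :
    N (fun z => TT (fun t => t * K t) u (Fk ψ k G) z -
      hv j (TT (fun t => t * K t) u (Fk ψ k G)) z) ≤ 6 * L1 (deriv ψ) * (wt j k * N G) := by
  have hd := c.dyF k hG
  have hT := c.bmA hu hd.cH
  have hdT := c.bmdA hu hd.cd
  have hid : ∀ x y y', TT (fun t => t * K t) u (Fk ψ k G) (x, y') -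
      TT (fun t => t * K t) u (Fk ψ k G) (x, y) =
      ∫ s in y..y', dT (fun t => t * K t) u (dFk ψ k G) (x, s) :=
    fun x y y' => ident c.kok.mulT c.e0 hu hd x y y'
  have h1 := d2 j _ _ hT hdT hid
  have h5 := c.m3 hu k hG
  have h9 : (2 : ℝ) ^ (-j) * N (dT (fun t => t * K t) u (dFk ψ k G)) ≤
      (2 : ℝ) ^ (k - j) * (6 * L1 (deriv ψ) * N G) := by
    have h10 : (2 : ℝ) ^ (k - j) = (2 : ℝ) ^ (-j) * (2 : ℝ) ^ k := by
      rw [← zpow_add₀ (by norm_num : (2 : ℝ) ≠ 0)]; congr 1; ring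
    rw [h10, mul_assoc]
    exact mul_le_mul_of_nonneg_left h5 (two_zpow_pos _).le
  have h11 : 0 ≤ 6 * L1 (deriv ψ) * N G :=
    mul_nonneg (by linarith [L1_nonneg (deriv ψ)]) (N_nonneg _)
  have h12 := mul_le_mul_of_nonneg_right (zpow_le_wt hjk) h11
  calc _ ≤ (2 : ℝ) ^ (-j) * N (dT (fun t => t * K t) u (dFk ψ k G)) := h1
    _ ≤ wt j k * (6 * L1 (deriv ψ) * N G) := by linarith
    _ = _ := by ring

end CoreData

/-- (ii) low output -/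
theorem CoreData.lo_one (c : CoreData K e Ψ ψ B) {D : ℝ} (hD0 : 0 < D)
    (hD : ∀ (j k : ℤ) (_ : j ≤ k) (G g : ℝ × ℝ → ℝ), BM2 G → BM2 g →
      (∀ x y y', G (x, y') - G (x, y) = ∫ s in y..y', g (x, s)) →
      N (hv j g) ^ 2 ≤ D * (2 : ℝ) ^ j * ((2 : ℝ) ^ k * N G ^ 2 + (2 : ℝ) ^ (-k) * N g ^ 2))
    (hu : UOK e u) {j k : ℤ} (hjk : j ≤ k) {G : ℝ × ℝ → ℝ} (hG : CC2 G) :
    N (hv j (dT K u (Fk ψ k G))) ≤ Real.sqrt (2 * D) * (B + 3 * L1 ψ) * (wt j k * N G) := by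
  have hd := c.dyH k hG
  have hT := c.bmT hu hd.cH
  have hdT := c.bmdT hu hd.cd
  have hid : ∀ x y y', TT K u (Hk Ψ k G) (x, y') - TT K u (Hk Ψ k G) (x, y) =
      ∫ s in y..y', dT K u (Fk ψ k G) (x, s) := fun x y y' => ident c.kok c.e0 hu hd x y y'
  have h1 := hD j k hjk _ _ hT hdT hid
  have h2 := c.n2 hu k hG
  have h3 := c.m2 hu k hG
  have hp := L1_nonneg ψ
  have hN := N_nonneg G
  have hB := c.B0
  set A := (B + 3 * L1 ψ) * N G with hA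
  have hA0 : 0 ≤ A := by positivity
  have hBA : B * N G ≤ A := by rw [hA]; nlinarith
  have h4 : N (TT K u (Hk Ψ k G)) ≤ (2 : ℝ) ^ (-k) * A :=
    h2.trans (mul_le_mul_of_nonneg_left hBA (two_zpow_pos _).le)
  have h5 : N (TT K u (Hk Ψ k G)) ^ 2 ≤ ((2 : ℝ) ^ (-k) * A) ^ 2 :=
    pow_le_pow_left₀ (N_nonneg _) h4 2
  have h6 : N (dT K u (Fk ψ k G)) ^ 2 ≤ A ^ 2 := pow_le_pow_left₀ (N_nonneg _) h3 2
  have hk1 := two_zpow_pos k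
  have hk2 := two_zpow_pos (-k)
  have hj1 := two_zpow_pos j
  have h7 : (2 : ℝ) ^ k * N (TT K u (Hk Ψ k G)) ^ 2 + (2 : ℝ) ^ (-k) * N (dT K u (Fk ψ k G)) ^ 2 ≤
      2 * ((2 : ℝ) ^ (-k) * A ^ 2) := by
    have h8 := mul_le_mul_of_nonneg_left h5 hk1.le
    have h9 := mul_le_mul_of_nonneg_left h6 hk2.le
    have h10 : (2 : ℝ) ^ k * ((2 : ℝ) ^ (-k) * A) ^ 2 = (2 : ℝ) ^ (-k) * A ^ 2 := by
      linear_combination ((2 : ℝ) ^ (-k) * A ^ 2) * zpow_mul_neg' k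
    linarith
  have h11 : N (hv j (dT K u (Fk ψ k G))) ^ 2 ≤ (Real.sqrt (2 * D) * (wt j k * A)) ^ 2 := by
    have h12 : (2 : ℝ) ^ j * (2 : ℝ) ^ (-k) = wt j k ^ 2 := by
      rw [← zpow_eq_wt hjk, ← zpow_add₀ (by norm_num : (2 : ℝ) ≠ 0)]; congr 1
    calc N (hv j (dT K u (Fk ψ k G))) ^ 2
        ≤ D * (2 : ℝ) ^ j * (2 * ((2 : ℝ) ^ (-k) * A ^ 2)) :=
          h1.trans (mul_le_mul_of_nonneg_left h7 (by positivity))
      _ = 2 * D * (((2 : ℝ) ^ j * (2 : ℝ) ^ (-k)) * A ^ 2) := by ring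
      _ = (Real.sqrt (2 * D) * (wt j k * A)) ^ 2 := by
          rw [h12, mul_pow (Real.sqrt (2 * D)), Real.sq_sqrt (by positivity)]; ring
  have h13 := le_of_sq_le_sq h11 (by have := (wt_pos j k).le; positivity)
  refine h13.trans (le_of_eq ?_)
  rw [hA]; ring

end Vale.Agent.P112.DEC
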