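import Vale.Agent.P112.H213.Core2

/-!
# P112, DEC: the core estimate, summation over the bands
-/

set_option linter.unusedSectionVars false
set_option linter.unusedVariables false
set_option linter.style.haveILetI false

open MeasureTheory Set
open scoped ENNReal NNReal Interval

namespace Vale.Agent.P112.DEC

variable {K : ℝ → ℝ} {e : ℝ} {Ψ ψ : ℝ → ℝ} {B : ℝ} {u : ℝ × ℝ → ℝ}

/-- the sum of the band components -/
noncomputable def FS (ψ : ℝ → ℝ) (S : Finset ℤ) (G : ℤ → ℝ × ℝ → ℝ) (z : ℝ × ℝ) : ℝ :=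
  ∑ k ∈ S, Fk ψ k (G k) z

/-- `h_j` -/
noncomputable def hj (K : ℝ → ℝ) (u : ℝ × ℝ → ℝ) (ψ : ℝ → ℝ) (S : Finset ℤ)
    (G : ℤ → ℝ × ℝ → ℝ) (j : ℤ) : ℝ × ℝ → ℝ :=
  hv j (TT (fun t => t * K t) u (FS ψ {k ∈ S | k ≤ j} G))

/-- the constant `c₃` -/
noncomputable def c3 (D B : ℝ) (ψ : ℝ → ℝ) : ℝ :=
  2 * (B + 3 * L1 (deriv ψ)) + 3 * (Real.sqrt (2 * D) * (B + 3 * L1 ψ)) + 6 * L1 (deriv ψ)

theorem wt_succ' {j k : ℤ} (h : j < k) : wt (j + 1) k ≤ 2 * wt j k := wt_succ (by omega)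

namespace CoreData

theorem est_one (c : CoreData K e Ψ ψ B) {D : ℝ} (hD0 : 0 < D)
    (hD : ∀ (j k : ℤ) (_ : j ≤ k) (G g : ℝ × ℝ → ℝ), BM2 G → BM2 g →
      (∀ x y y', G (x, y') - G (x, y) = ∫ s in y..y', g (x, s)) →
      N (hv j g) ^ 2 ≤ D * (2 : ℝ) ^ j * ((2 : ℝ) ^ k * N G ^ 2 + (2 : ℝ) ^ (-k) * N g ^ 2))
    (hu : UOK e u) (S : Finset ℤ) {G : ℤ → ℝ × ℝ → ℝ} (hG : ∀ k, CC2 (G k)) (j : ℤ) :
    N (Dj j (TT K u (FS ψ S G))) ≤ c3 D B ψ * ∑ k ∈ S, wt j k * N (G k) +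
      N (Dj j (fun z => bu u z * TT (fun t => t * K t) u (FS ψ S G) z)) +
      N (fun z => (hv (j + 1) (bu u) z - hv j (bu u) z) * hj K u ψ S G j z) := by
  classical
  have hF : ∀ k, CC2 (Fk ψ k (G k)) := fun k => (c.dyF k (hG k)).cH
  have hFS : ∀ T : Finset ℤ, CC2 (FS ψ T G) := fun T => CC2.sum T fun k _ => hF k
  have hA : ∀ {F : ℝ × ℝ → ℝ}, CC2 F → BM2 (TT (fun t => t * K t) u F) := fun h => c.bmA hu h
  have hb : ∀ {F : ℝ × ℝ → ℝ}, BM2 F → BM2 (fun z => bu u z * F z) := fun h => c.bmbA hu h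
  set A := TT (fun t => t * K t) u with hAdef
  set S1 : Finset ℤ := {k ∈ S | k ≤ j} with hS1
  set S2 : Finset ℤ := {k ∈ S | ¬ k ≤ j} with hS2
  have hsplit : ∀ f : ℤ → ℝ, ∑ k ∈ S, f k = ∑ k ∈ S1, f k + ∑ k ∈ S2, f k := fun f =>
    (Finset.sum_filter_add_sum_filter_not S (fun k => k ≤ j) f).symm
  -- the function `h_j`
  have hhj : BM2 (hj K u ψ S G j) := d1 j _ (hA (hFS S1))
  have hlev : ∀ x y y', dix j y = dix j y' → hj K u ψ S G j (x, y) = hj K u ψ S G j (x, y') :=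
    fun x y y' h => d11 j _ x y y' h
  -- decomposition
  have hdec : ∀ z, Dj j (TT K u (FS ψ S G)) z =
      (∑ k ∈ S1, Dj j (TT K u (Fk ψ k (G k))) z + ∑ k ∈ S2, Dj j (dT K u (Fk ψ k (G k))) z) +
      (Dj j (fun z => bu u z * A (FS ψ S G) z) z -
        Dj j (fun z => bu u z * (A (FS ψ S1 G) z - hj K u ψ S G j z)) z) -
      (hv (j + 1) (bu u) z - hv j (bu u) z) * hj K u ψ S G j z := by
    intro z
    have e1 : Dj j (TT K u (FS ψ S G)) z = ∑ k ∈ S, Dj j (TT K u (Fk ψ k (G k))) z := by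
      have h1 : TT K u (FS ψ S G) = fun w => ∑ k ∈ S, TT K u (Fk ψ k (G k)) w := by
        funext w; exact TT_sum c.kok u S (fun k => (hF k).bm) w
      rw [h1, Dj_sum d10 j S (fun k => c.bmT hu (hF k))]
    have e2 : ∀ k, Dj j (TT K u (Fk ψ k (G k))) z =
        Dj j (dT K u (Fk ψ k (G k))) z + Dj j (fun w => bu u w * A (Fk ψ k (G k)) w) z := by
      intro k
      have h1 : TT K u (Fk ψ k (G k)) = fun w => dT K u (Fk ψ k (G k)) w +
          bu u w * A (Fk ψ k (G k)) w := by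
        funext w; simp only [dT, hAdef]; ring
      conv_lhs => rw [h1]
      exact Dj_add d10 j (c.bmdT hu (hF k)) (hb (hA (hF k))) z
    have e3 : ∀ T : Finset ℤ, ∑ k ∈ T, Dj j (fun w => bu u w * A (Fk ψ k (G k)) w) z =
        Dj j (fun w => bu u w * A (FS ψ T G) w) z := by
      intro T
      rw [← Dj_sum d10 j T (fun k => hb (hA (hF k)))]
      congr 1
      funext w
      rw [← Finset.mul_sum]
      congr 1
      exact (TT_sum c.kok.mulT u T (fun k => (hF k).bm) w).symm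
    have e4 : Dj j (fun w => bu u w * A (FS ψ S G) w) z =
        Dj j (fun w => bu u w * A (FS ψ S1 G) w) z + Dj j (fun w => bu u w * A (FS ψ S2 G) w) z := by
      rw [← e3 S, ← e3 S1, ← e3 S2]
      exact hsplit _
    have e5 : Dj j (fun w => bu u w * A (FS ψ S1 G) w) z =
        Dj j (fun z => bu u z * (A (FS ψ S1 G) z - hj K u ψ S G j z)) z +
        Dj j (fun z => bu u z * hj K u ψ S G j z) z := by
      rw [← Dj_add d10 j (hb ((hA (hFS S1)).sub hhj)) (hb hhj)]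
      congr 1
      funext w; ring
    have e6 : Dj j (fun z => bu u z * hj K u ψ S G j z) z =
        (hv (j + 1) (bu u) z - hv j (bu u) z) * hj K u ψ S G j z := by
      unfold Dj
      rw [d8 j (j + 1) (by omega) (bu u) (hj K u ψ S G j) e (measurable_bu hu.cont)
        (abs_bu_le c.e0 hu) hhj hlev z,
        d8 j j le_rfl (bu u) (hj K u ψ S G j) e (measurable_bu hu.cont)
        (abs_bu_le c.e0 hu) hhj hlev z]
      ring
    rw [e1, hsplit]
    have e7 : ∑ k ∈ S2, Dj j (TT K u (Fk ψ k (G k))) z =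
        ∑ k ∈ S2, Dj j (dT K u (Fk ψ k (G k))) z + Dj j (fun w => bu u w * A (FS ψ S2 G) w) z := by
      rw [← e3 S2, ← Finset.sum_add_distrib]
      exact Finset.sum_congr rfl fun k _ => e2 k
    rw [e7]
    linarith
  -- bounds of the pieces
  have bmH : BM2 (fun z => ∑ k ∈ S1, Dj j (TT K u (Fk ψ k (G k))) z) :=
    BM2.sum S1 fun k _ => Dj_bm d1 j (c.bmT hu (hF k))
  have bmL : BM2 (fun z => ∑ k ∈ S2, Dj j (dT K u (Fk ψ k (G k))) z) :=
    BM2.sum S2 fun k _ => Dj_bm d1 j (c.bmdT hu (hF k))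
  have bmM : BM2 (Dj j (fun z => bu u z * A (FS ψ S G) z)) := Dj_bm d1 j (hb (hA (hFS S)))
  have bmE : BM2 (Dj j (fun z => bu u z * (A (FS ψ S1 G) z - hj K u ψ S G j z))) :=
    Dj_bm d1 j (hb ((hA (hFS S1)).sub hhj))
  have bmC : BM2 (fun z => (hv (j + 1) (bu u) z - hv j (bu u) z) * hj K u ψ S G j z) := by
    have h1 : (fun z => (hv (j + 1) (bu u) z - hv j (bu u) z) * hj K u ψ S G j z) =
        Dj j (fun z => bu u z * hj K u ψ S G j z) := by
      funext z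
      unfold Dj
      rw [d8 j (j + 1) (by omega) (bu u) (hj K u ψ S G j) e (measurable_bu hu.cont)
        (abs_bu_le c.e0 hu) hhj hlev z,
        d8 j j le_rfl (bu u) (hj K u ψ S G j) e (measurable_bu hu.cont)
        (abs_bu_le c.e0 hu) hhj hlev z]
      ring
    rw [h1]; exact Dj_bm d1 j (hb hhj)
  have bH : N (fun z => ∑ k ∈ S1, Dj j (TT K u (Fk ψ k (G k))) z) ≤
      2 * (B + 3 * L1 (deriv ψ)) * ∑ k ∈ S, wt j k * N (G k) := by
    refine (N_sum_le S1 fun k _ => Dj_bm d1 j (c.bmT hu (hF k))).trans ?_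
    rw [Finset.mul_sum]
    refine (Finset.sum_le_sum (f := fun k => N (Dj j (TT K u (Fk ψ k (G k)))))
      (g := fun k => 2 * (B + 3 * L1 (deriv ψ)) * (wt j k * N (G k))) fun k hk => ?_).trans ?_
    · exact c.hi hu (Finset.mem_filter.1 hk).2 (hG k)
    · refine Finset.sum_le_sum_of_subset_of_nonneg (Finset.filter_subset _ _) fun k _ _ => ?_
      have := c.B0
      have := L1_nonneg (deriv ψ)
      have := (wt_pos j k).le
      have := N_nonneg (G k)
      positivity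
  have bL : N (fun z => ∑ k ∈ S2, Dj j (dT K u (Fk ψ k (G k))) z) ≤
      3 * (Real.sqrt (2 * D) * (B + 3 * L1 ψ)) * ∑ k ∈ S, wt j k * N (G k) := by
    refine (N_sum_le S2 fun k _ => Dj_bm d1 j (c.bmdT hu (hF k))).trans ?_
    rw [Finset.mul_sum]
    have hB := c.B0
    have hp := L1_nonneg ψ
    refine (Finset.sum_le_sum (f := fun k => N (Dj j (dT K u (Fk ψ k (G k)))))
      (g := fun k => 3 * (Real.sqrt (2 * D) * (B + 3 * L1 ψ)) * (wt j k * N (G k)))
      fun k hk => ?_).trans ?_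
    · have hjk : j < k := not_le.1 (Finset.mem_filter.1 hk).2
      have h1 := N_sub_le (d1 (j + 1) _ (c.bmdT hu (hF k))) (d1 j _ (c.bmdT hu (hF k)))
      have h2 := c.lo_one hD0 hD hu (by omega : j + 1 ≤ k) (hG k)
      have h3 := c.lo_one hD0 hD hu hjk.le (hG k)
      have h4 : N (Dj j (dT K u (Fk ψ k (G k)))) =
        N (fun z => hv (j + 1) (dT K u (Fk ψ k (G k))) z - hv j (dT K u (Fk ψ k (G k))) z) := rfl
      have h5 : Real.sqrt (2 * D) * (B + 3 * L1 ψ) * (wt (j + 1) k * N (G k)) ≤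
          Real.sqrt (2 * D) * (B + 3 * L1 ψ) * (2 * wt j k * N (G k)) := by
        refine mul_le_mul_of_nonneg_left ?_ (by positivity)
        exact mul_le_mul_of_nonneg_right (wt_succ' hjk) (N_nonneg _)
      show N (Dj j (dT K u (Fk ψ k (G k)))) ≤
        3 * (Real.sqrt (2 * D) * (B + 3 * L1 ψ)) * (wt j k * N (G k))
      rw [h4]
      nlinarith
    · refine Finset.sum_le_sum_of_subset_of_nonneg (Finset.filter_subset _ _) fun k _ _ => ?_
      have := (wt_pos j k).le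
      have := N_nonneg (G k)
      positivity
  have bE : N (Dj j (fun z => bu u z * (A (FS ψ S1 G) z - hj K u ψ S G j z))) ≤
      6 * L1 (deriv ψ) * ∑ k ∈ S, wt j k * N (G k) := by
    have h1 := N_Dj_le d1 d7 j (hb ((hA (hFS S1)).sub hhj))
    have h2 := c.NbA hu ((hA (hFS S1)).sub hhj)
    have h3 : 0 ≤ N (fun z => A (FS ψ S1 G) z - hj K u ψ S G j z) := N_nonneg _
    have h4 : N (fun z => A (FS ψ S1 G) z - hj K u ψ S G j z) ≤
        6 * L1 (deriv ψ) * ∑ k ∈ S, wt j k * N (G k) := by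
      have h5 : (fun z => A (FS ψ S1 G) z - hj K u ψ S G j z) =
          fun z => ∑ k ∈ S1, (A (Fk ψ k (G k)) z - hv j (A (Fk ψ k (G k))) z) := by
        funext z
        have h6 : A (FS ψ S1 G) = fun w => ∑ k ∈ S1, A (Fk ψ k (G k)) w := by
          funext w; exact TT_sum c.kok.mulT u S1 (fun k => (hF k).bm) w
        unfold hj
        rw [← hAdef, h6, hv_sum d10 j S1 (fun k => hA (hF k)), Finset.sum_sub_distrib]
      rw [h5]
      refine (N_sum_le S1 fun k _ => (hA (hF k)).sub (d1 j _ (hA (hF k)))).trans ?_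
      rw [Finset.mul_sum]
      refine (Finset.sum_le_sum
        (f := fun k => N (fun z => A (Fk ψ k (G k)) z - hv j (A (Fk ψ k (G k))) z))
        (g := fun k => 6 * L1 (deriv ψ) * (wt j k * N (G k))) fun k hk => ?_).trans ?_
      · exact c.hi' hu (Finset.mem_filter.1 hk).2 (hG k)
      · refine Finset.sum_le_sum_of_subset_of_nonneg (Finset.filter_subset _ _) fun k _ _ => ?_
        have := L1_nonneg (deriv ψ)
        have := (wt_pos j k).le
        have := N_nonneg (G k)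
        positivity
    have h6 : e * N (fun z => A (FS ψ S1 G) z - hj K u ψ S G j z) ≤
        1 / 2 * N (fun z => A (FS ψ S1 G) z - hj K u ψ S G j z) :=
      mul_le_mul_of_nonneg_right c.e1 h3
    linarith
  -- conclusion
  have hfin : Dj j (TT K u (FS ψ S G)) = fun z =>
      (∑ k ∈ S1, Dj j (TT K u (Fk ψ k (G k))) z + ∑ k ∈ S2, Dj j (dT K u (Fk ψ k (G k))) z) +
      (Dj j (fun z => bu u z * A (FS ψ S G) z) z -
        Dj j (fun z => bu u z * (A (FS ψ S1 G) z - hj K u ψ S G j z)) z) -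
      (hv (j + 1) (bu u) z - hv j (bu u) z) * hj K u ψ S G j z := funext hdec
  rw [hfin]
  have t1 := N_sub_le ((bmH.add bmL).add (bmM.sub bmE)) bmC
  have t2 := N_add_le (bmH.add bmL) (bmM.sub bmE)
  have t3 := N_add_le bmH bmL
  have t4 := N_sub_le bmM bmE
  unfold c3
  linarith

/-- the sum over the output scales -/
theorem est_sum (e : ℝ) (Ψ ψ : ℝ → ℝ) (B : ℝ) : ∃ C : ℝ, 0 < C ∧ ∀ K : ℝ → ℝ,
    CoreData K e Ψ ψ B → ∀ u : ℝ × ℝ → ℝ, UOK e u →
    ∀ (S : Finset ℤ) (G : ℤ → ℝ × ℝ → ℝ), (∀ k, CC2 (G k)) → ∀ (J : ℕ) (m : ℝ × ℝ → ℝ), BM2 m →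
    (∀ z, 0 ≤ m z) → (∀ j ∈ Finset.Ico (-(J : ℤ)) J, ∀ z, |hj K u ψ S G j z| ≤ m z) →
    ∑ j ∈ Finset.Ico (-(J : ℤ)) J, N (Dj j (TT K u (FS ψ S G))) ^ 2 ≤
      C * (∑ k ∈ S, N (G k) ^ 2 + N (FS ψ S G) ^ 2 + N m ^ 2) := by
  classical
  obtain ⟨D, hD0, hD⟩ := d3
  obtain ⟨Cs, hCs0, hCs⟩ := sch
  refine ⟨3 * (c3 D B ψ ^ 2 * Cs + 9), by positivity, fun K c u hu S G hG J m hm hm0 hmj => ?_⟩
  have hF : ∀ k, CC2 (Fk ψ k (G k)) := fun k => (c.dyF k (hG k)).cH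
  have hFS : CC2 (FS ψ S G) := CC2.sum S fun k _ => hF k
  have hA := c.bmA hu hFS
  have hbA := c.bmbA hu hA
  have h1 : ∀ j, N (Dj j (TT K u (FS ψ S G))) ^ 2 ≤
      3 * ((c3 D B ψ) ^ 2 * (∑ k ∈ S, wt j k * N (G k)) ^ 2 +
        N (Dj j (fun z => bu u z * TT (fun t => t * K t) u (FS ψ S G) z)) ^ 2 +
        N (fun z => (hv (j + 1) (bu u) z - hv j (bu u) z) * hj K u ψ S G j z) ^ 2) := by
    intro j
    have h2 := c.est_one hD0 hD hu S hG j
    have h3 : N (Dj j (TT K u (FS ψ S G))) ^ 2 ≤ (c3 D B ψ * ∑ k ∈ S, wt j k * N (G k) +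
      N (Dj j (fun z => bu u z * TT (fun t => t * K t) u (FS ψ S G) z)) +
      N (fun z => (hv (j + 1) (bu u) z - hv j (bu u) z) * hj K u ψ S G j z)) ^ 2 :=
      pow_le_pow_left₀ (N_nonneg _) h2 2
    set a := c3 D B ψ * ∑ k ∈ S, wt j k * N (G k) with ha
    set b := N (Dj j (fun z => bu u z * TT (fun t => t * K t) u (FS ψ S G) z))
    set d := N (fun z => (hv (j + 1) (bu u) z - hv j (bu u) z) * hj K u ψ S G j z)
    have h4 : (c3 D B ψ) ^ 2 * (∑ k ∈ S, wt j k * N (G k)) ^ 2 = a ^ 2 := by rw [ha]; ring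
    rw [h4]
    nlinarith [sq_nonneg (a - b), sq_nonneg (a - d), sq_nonneg (b - d)]
  have h2 : ∑ j ∈ Finset.Ico (-(J : ℤ)) J, (∑ k ∈ S, wt j k * N (G k)) ^ 2 ≤
      Cs * ∑ k ∈ S, N (G k) ^ 2 := hCs _ S (fun k => N (G k)) fun k => N_nonneg _
  have h3 : ∑ j ∈ Finset.Ico (-(J : ℤ)) J,
      N (Dj j (fun z => bu u z * TT (fun t => t * K t) u (FS ψ S G) z)) ^ 2 ≤
      (3 * N (FS ψ S G)) ^ 2 := by
    refine (d4 J _ hbA).trans (pow_le_pow_left₀ (N_nonneg _) ?_ 2)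
    have h4 := c.NbA hu hA
    have h5 := c.nA hu hFS
    have h6 : e * N (TT (fun t => t * K t) u (FS ψ S G)) ≤
        1 * N (TT (fun t => t * K t) u (FS ψ S G)) :=
      mul_le_mul_of_nonneg_right (by linarith [c.e1]) (N_nonneg _)
    linarith
  have h4 : ∑ j ∈ Finset.Ico (-(J : ℤ)) J,
      N (fun z => (hv (j + 1) (bu u) z - hv j (bu u) z) * hj K u ψ S G j z) ^ 2 ≤
      1 * N m ^ 2 := by
    have h5 := d6 J (bu u) e (measurable_bu hu.cont) (abs_bu_le c.e0 hu)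
      (fun j => if j ∈ Finset.Ico (-(J : ℤ)) J then hj K u ψ S G j else fun _ => 0) m
      (fun j => by
        by_cases hj' : j ∈ Finset.Ico (-(J : ℤ)) J
        · simp only [if_pos hj']
          exact d1 j _ (c.bmA hu (CC2.sum _ fun k _ => hF k))
        · simp only [if_neg hj']; exact BM2.zero) hm
      (fun j x y y' hy => by
        by_cases hj' : j ∈ Finset.Ico (-(J : ℤ)) J
        · simp only [if_pos hj']; exact d11 j _ x y y' hy
        · simp only [if_neg hj'])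
      (fun j z => by
        by_cases hj' : j ∈ Finset.Ico (-(J : ℤ)) J
        · simp only [if_pos hj']; exact hmj j hj' z
        · simp only [if_neg hj', abs_zero]; exact hm0 z)
    have h6 : ∑ j ∈ Finset.Ico (-(J : ℤ)) J,
        N (fun z => (hv (j + 1) (bu u) z - hv j (bu u) z) * hj K u ψ S G j z) ^ 2 =
        ∑ j ∈ Finset.Ico (-(J : ℤ)) J, N (fun z => (hv (j + 1) (bu u) z - hv j (bu u) z) *
          (if j ∈ Finset.Ico (-(J : ℤ)) J then hj K u ψ S G j else fun _ => 0) z) ^ 2 :=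
      Finset.sum_congr rfl fun j hj' => by simp only [if_pos hj']
    rw [h6]
    refine h5.trans (mul_le_mul_of_nonneg_right ?_ (sq_nonneg _))
    nlinarith [c.e0, c.e1]
  calc ∑ j ∈ Finset.Ico (-(J : ℤ)) J, N (Dj j (TT K u (FS ψ S G))) ^ 2
      ≤ ∑ j ∈ Finset.Ico (-(J : ℤ)) J, 3 * ((c3 D B ψ) ^ 2 * (∑ k ∈ S, wt j k * N (G k)) ^ 2 +
        N (Dj j (fun z => bu u z * TT (fun t => t * K t) u (FS ψ S G) z)) ^ 2 +
        N (fun z => (hv (j + 1) (bu u) z - hv j (bu u) z) * hj K u ψ S G j z) ^ 2) :=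
        Finset.sum_le_sum fun j _ => h1 j
    _ ≤ 3 * ((c3 D B ψ) ^ 2 * (Cs * ∑ k ∈ S, N (G k) ^ 2) + (3 * N (FS ψ S G)) ^ 2 +
        1 * N m ^ 2) := by
        rw [← Finset.mul_sum, Finset.sum_add_distrib, Finset.sum_add_distrib, ← Finset.mul_sum]
        have h5 := mul_le_mul_of_nonneg_left h2 (sq_nonneg (c3 D B ψ))
        linarith
    _ ≤ _ := by
        have h6 : 0 ≤ ∑ k ∈ S, N (G k) ^ 2 := Finset.sum_nonneg fun _ _ => sq_nonneg _
        have h7 : 0 ≤ c3 D B ψ ^ 2 * Cs := by positivity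
        have h8 := sq_nonneg (N (FS ψ S G))
        have h9 := sq_nonneg (N m)
        nlinarith [mul_nonneg h7 h8, mul_nonneg h7 h9]

end CoreData

end Vale.Agent.P112.DEC
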