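import Vale.Agent.P112.H213.Theta

/-!
# P112, DEC: the gluing theorem for a fixed kernel family
-/

set_option linter.unusedSectionVars false
set_option linter.unusedVariables false
set_option linter.style.haveILetI false

open MeasureTheory Set Filter Topology
open scoped ENNReal NNReal Interval

namespace Vale.Agent.P112.DEC

/-- finite maxima of `CC2` functions -/
theorem CC2.sup' {ι : Type*} (S : Finset ι) (hS : S.Nonempty) {f : ι → ℝ × ℝ → ℝ}
    (hf : ∀ i, CC2 (f i)) : CC2 (fun z => S.sup' hS fun i => |f i z|) := by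
  refine ⟨Continuous.finset_sup'_apply hS fun i _ => (hf i).1.abs, ?_⟩
  have h1 : CC2 (fun z => ∑ i ∈ S, |f i z|) := CC2.sum S fun i _ => (hf i).abs
  refine h1.2.mono fun z hz => ?_
  rw [Function.mem_support] at hz ⊢
  intro h0
  apply hz
  have h2 : ∀ i ∈ S, |f i z| = 0 := (Finset.sum_eq_zero_iff_of_nonneg fun i _ => abs_nonneg _).1 h0
  refine le_antisymm (Finset.sup'_le hS _ fun i hi => (h2 i hi).le) ?_
  obtain ⟨i, hi⟩ := hS
  exact (abs_nonneg _).trans (Finset.le_sup' (fun i => |f i z|) hi)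

theorem BM2.sup' {ι : Type*} (S : Finset ι) (hS : S.Nonempty) {f : ι → ℝ × ℝ → ℝ}
    (hf : ∀ i, BM2 (f i)) : BM2 (fun z => S.sup' hS fun i => |f i z|) := by
  have h1 : BM2 (fun z => ∑ i ∈ S, |f i z|) := BM2.sum S fun i _ => (hf i).abs
  have hnn : ∀ z, 0 ≤ S.sup' hS fun i => |f i z| := fun z => by
    obtain ⟨i, hi⟩ := hS
    exact (abs_nonneg _).trans (Finset.le_sup' (fun i => |f i z|) hi)
  refine h1.congr_supp ?_ ?_ ?_
  · have := Finset.measurable_sup' hS (f := fun i z => |f i z|) fun i _ => (hf i).meas.abs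
    have h2 : (fun z => S.sup' hS fun i => |f i z|) = S.sup' hS (fun i z => |f i z|) := by
      funext z; rw [Finset.sup'_apply]
    rw [h2]; exact this
  · obtain ⟨M, hM⟩ := h1.bdd
    refine ⟨M, fun z => ?_⟩
    rw [abs_of_nonneg (hnn z)]
    refine Finset.sup'_le hS _ fun i hi => ?_
    exact (Finset.single_le_sum (f := fun i => |f i z|) (fun i _ => abs_nonneg _) hi).trans
      ((le_abs_self _).trans (hM z))
  · intro z h0
    have h2 : ∀ i ∈ S, |f i z| = 0 := (Finset.sum_eq_zero_iff_of_nonneg fun i _ => abs_nonneg _).1 h0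
    exact le_antisymm (Finset.sup'_le hS _ fun i hi => (h2 i hi).le) (hnn z)

theorem KOK.abs {K : ℝ → ℝ} (hK : KOK K) : KOK (fun t => |K t|) :=
  ⟨hK.cont.abs, fun t ht => by rw [hK.supp t ht, abs_zero]⟩

theorem abs_TT_le {K : ℝ → ℝ} (hK : KOK K) (u : ℝ × ℝ → ℝ) {F G : ℝ × ℝ → ℝ} (hF : BM2 F)
    (hG : BM2 G) (h : ∀ z, |F z| ≤ G z) (z : ℝ × ℝ) :
    |TT K u F z| ≤ TT (fun t => |K t|) u G z := by
  rw [TT_eq_Icc hK, TT_eq_Icc hK.abs]
  refine (abs_integral_le_integral_abs).trans ?_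
  refine integral_mono (TT_integrable hK hF z).abs (TT_integrable hK.abs hG z) fun t => ?_
  show |K t * F _| ≤ |K t| * G _
  rw [abs_mul]
  exact mul_le_mul_of_nonneg_left (h _) (abs_nonneg _)

theorem FS_Th {φ : ℝ → ℝ} (hφ : CC1 φ) {F : ℝ × ℝ → ℝ} (hF : CC2 F) {a b : ℤ} (hab : a ≤ b)
    (z : ℝ × ℝ) : FS (psi φ) (Finset.Ico a b) (fun k => Th φ k F) z = PhF φ b F z - PhF φ a F z := by
  rw [← sum_Ico_tel (fun k => PhF φ k F z) a b hab]
  exact Finset.sum_congr rfl fun k _ => Fk_Th hφ k hF z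

theorem N_PhF_le {φ : ℝ → ℝ} (hφ : CC1 φ) (k : ℤ) {F : ℝ × ℝ → ℝ} (hF : CC2 F) :
    N (PhF φ k F) ≤ (3 * L1 φ + 2 * L1 φ ^ 2) * N (Pk φ k F) := by
  have a := Pk_CC2 hφ k hF
  have aa := Pk_CC2 hφ k a
  have aaa := Pk_CC2 hφ k aa
  have h1 := N_sub_le (aa.const_mul 3).bm (aaa.const_mul 2).bm
  rw [N_const_mul, N_const_mul, abs_of_pos (by norm_num : (0 : ℝ) < 3),
    abs_of_pos (by norm_num : (0 : ℝ) < 2)] at h1
  have h2 := N_Pk_le hφ k a
  have h3 := N_Pk_le hφ k aa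
  have h4 : N (PhF φ k F) = N (fun z => 3 * Pk φ k (Pk φ k F) z -
    2 * Pk φ k (Pk φ k (Pk φ k F)) z) := rfl
  have hL := L1_nonneg φ
  have h5 := mul_le_mul_of_nonneg_left h2 hL
  rw [h4]
  nlinarith

/-- the bound for the truncated sums, uniformly -/
theorem dec_trunc {φ Ψ : ℝ → ℝ} (hs : ContDiff ℝ 1 φ) (hc : HasCompactSupport φ)
    (h1 : ∫ s, φ s = 1) (e B : ℝ) : ∃ C : ℝ, 0 < C ∧ ∀ K : ℝ → ℝ, CoreData K e Ψ (psi φ) B →
    ∀ u : ℝ × ℝ → ℝ, UOK e u → ∀ F : ℝ × ℝ → ℝ, CC2 F → ∀ M : ℕ,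
      N (TT K u (FS (psi φ) (Finset.Ico (-(M : ℤ)) M) (fun k => Th φ k F))) ^ 2 ≤ C * N F ^ 2 := by
  classical
  have hφ : CC1 φ := ⟨hs.continuous, hc⟩
  obtain ⟨C1, hC1, H1⟩ := CoreData.est_sum e Ψ (psi φ) B
  obtain ⟨C2, hC2, H2⟩ := sum_Th hs hc h1
  obtain ⟨C3, hC3, H3⟩ := mx1 (Phik φ) (Phik_CC1 hφ)
  obtain ⟨C4, hC4, H4⟩ := mx2
  set L := L1 (Phik φ) with hL
  have hL0 : 0 ≤ L := L1_nonneg _
  refine ⟨C1 * (C2 + (2 * L) ^ 2 + (C4 * (3 * (C3 + L))) ^ 2) + 1, by positivity,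
    fun K c u hu F hF M => ?_⟩
  set G : ℤ → ℝ × ℝ → ℝ := fun k => Th φ k F with hG
  set S : Finset ℤ := Finset.Ico (-(M : ℤ)) M with hS
  have hGc : ∀ k, CC2 (G k) := fun k => Th_CC2 hφ k hF
  have hPh : ∀ k, CC2 (PhF φ k F) := fun k => PhF_CC2 hφ k hF
  have hNPh : ∀ k, N (PhF φ k F) ≤ L * N F := by
    intro k
    have h2 : PhF φ k F = cy (dil k (Phik φ)) F := by funext z; exact (cy_Phik hφ k hF z).symm
    rw [h2]
    have := N_cy_le ((Phik_CC1 hφ).dil k) hF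
    rwa [L1_dil] at this
  -- the sum of all components
  have hFS : CC2 (FS (psi φ) S G) := CC2.sum S fun k _ => (c.dyF k (hGc k)).cH
  have hNFS : N (FS (psi φ) S G) ≤ 2 * L * N F := by
    have h2 : FS (psi φ) S G = fun z => PhF φ M F z - PhF φ (-(M : ℤ)) F z := by
      funext z; exact FS_Th hφ hF (by omega) z
    rw [h2]
    have := N_sub_le (hPh M).bm (hPh (-(M : ℤ))).bm
    have := hNPh M
    have := hNPh (-(M : ℤ))
    linarith
  -- the majorant of the partial sums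
  have hne : (Finset.Icc (-(M : ℤ)) M).Nonempty := ⟨0, by simp⟩
  set G1 : ℝ × ℝ → ℝ := fun z => (Finset.Icc (-(M : ℤ)) M).sup' hne fun k => |PhF φ k F z| with hG1
  have hG1c : CC2 G1 := CC2.sup' _ hne hPh
  have hG1n : N G1 ≤ C3 * N F := by
    refine H3 F hF G1 hG1c.bm fun z => ?_
    obtain ⟨k, hk, hk2⟩ := Finset.exists_mem_eq_sup' hne (fun k => |PhF φ k F z|)
    refine ⟨k, ?_⟩
    rw [cy_Phik hφ k hF z]
    have h3 : G1 z = |PhF φ k F z| := hk2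
    rw [h3, abs_abs]
  set Fs : ℝ × ℝ → ℝ := fun z => G1 z + |PhF φ (-(M : ℤ)) F z| with hFs
  have hFsc : CC2 Fs := hG1c.add (hPh _).abs
  have hFsn : N Fs ≤ (C3 + L) * N F := by
    have h2 := N_add_le hG1c.bm (hPh (-(M : ℤ))).abs.bm
    rw [N_abs] at h2
    have h3 := hNPh (-(M : ℤ))
    have h4 : N Fs = N (fun z => G1 z + |PhF φ (-(M : ℤ)) F z|) := rfl
    rw [h4]; linarith
  have hpart : ∀ j z, |FS (psi φ) {k ∈ S | k ≤ j} G z| ≤ Fs z := by
    intro j z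
    set b : ℤ := max (-(M : ℤ)) (min M (j + 1)) with hb
    have h2 : ({k ∈ S | k ≤ j} : Finset ℤ) = Finset.Ico (-(M : ℤ)) b := by
      ext x
      simp only [hS, Finset.mem_filter, Finset.mem_Ico, hb]
      omega
    rw [h2, FS_Th hφ hF (le_max_left _ _) z]
    have h3 : |PhF φ b F z| ≤ G1 z :=
      Finset.le_sup' (fun k => |PhF φ k F z|) (by simp only [Finset.mem_Icc, hb]; omega)
    calc |PhF φ b F z - PhF φ (-(M : ℤ)) F z| ≤ |PhF φ b F z| + |PhF φ (-(M : ℤ)) F z| := abs_sub _ _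
      _ ≤ G1 z + |PhF φ (-(M : ℤ)) F z| := by linarith
  -- the majorant of the `h_j`
  set A : ℝ × ℝ → ℝ := TT (fun t => |t * K t|) u Fs with hA
  have hAc : CC2 A := TT_supp c.kok.mulT.abs c.e1 hu hFsc
  have hFs0 : ∀ z, 0 ≤ Fs z := fun z => (abs_nonneg _).trans (hpart 0 z)
  have hA0 : ∀ z, 0 ≤ A z := fun z =>
    integral_nonneg fun t => mul_nonneg (abs_nonneg _) (hFs0 _)
  have hAn : N A ≤ 3 * N Fs := by
    have := N_TT_le c.kok.mulT.abs (c := 1) (fun t => by rw [abs_abs]; exact c.kt t) c.e1 hu hFsc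
    linarith
  have hFSj : ∀ j, CC2 (FS (psi φ) {k ∈ S | k ≤ j} G) := fun j =>
    CC2.sum _ fun k _ => (c.dyF k (hGc k)).cH
  have hhj : ∀ j z, |hj K u (psi φ) S G j z| ≤ hv j A z := by
    intro j z
    refine d9 j _ A (c.bmA hu (hFSj j)) hAc.bm (fun w => ?_) z
    exact abs_TT_le c.kok.mulT u (hFSj j).bm hFsc.bm (hpart j) w
  have hbmj : ∀ j, BM2 (hj K u (psi φ) S G j) := fun j => d1 j _ (c.bmA hu (hFSj j))
  -- the estimate for every `J`
  have hT : CC2 (TT K u (FS (psi φ) S G)) := TT_supp c.kok c.e1 hu hFS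
  refine (d5 _ hT _ (fun J => ?_)).trans (le_refl _)
  have hneJ : (Finset.Icc (-(J : ℤ)) J).Nonempty := ⟨0, by simp⟩
  set m : ℝ × ℝ → ℝ := fun z => (Finset.Icc (-(J : ℤ)) J).sup' hneJ fun j =>
    |hj K u (psi φ) S G j z| with hm
  have hmb : BM2 m := BM2.sup' _ hneJ hbmj
  have hm0 : ∀ z, 0 ≤ m z := fun z => (abs_nonneg _).trans
    (Finset.le_sup' (fun j => |hj K u (psi φ) S G j z|) (by simp : (0 : ℤ) ∈ Finset.Icc (-(J : ℤ)) J))
  have hmn : N m ≤ C4 * N A := by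
    refine H4 A hAc.bm hA0 m hmb fun z => ?_
    obtain ⟨j, hj1, hj2⟩ := Finset.exists_mem_eq_sup' hneJ (fun j => |hj K u (psi φ) S G j z|)
    refine ⟨j, ?_⟩
    have h3 : m z = |hj K u (psi φ) S G j z| := hj2
    rw [h3, abs_abs]
    exact hhj j z
  have h5 := H1 K c u hu S G hGc J m hmb hm0 (fun j hj' z =>
    Finset.le_sup' (fun j => |hj K u (psi φ) S G j z|) (by
      rw [Finset.mem_Ico] at hj'
      rw [Finset.mem_Icc]; omega))
  have h6 := H2 S F hF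
  have h7 : N (FS (psi φ) S G) ^ 2 ≤ (2 * L * N F) ^ 2 := pow_le_pow_left₀ (N_nonneg _) hNFS 2
  have h8 : N m ≤ C4 * (3 * (C3 + L)) * N F := by
    have h9 : C4 * N A ≤ C4 * (3 * ((C3 + L) * N F)) :=
      mul_le_mul_of_nonneg_left (by linarith) hC4.le
    linarith
  have h9 : N m ^ 2 ≤ (C4 * (3 * (C3 + L)) * N F) ^ 2 := pow_le_pow_left₀ (N_nonneg _) h8 2
  have h10 : ∑ j ∈ Finset.Ico (-(J : ℤ)) J, N (fun z => hv (j + 1) (TT K u (FS (psi φ) S G)) z -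
      hv j (TT K u (FS (psi φ) S G)) z) ^ 2 =
      ∑ j ∈ Finset.Ico (-(J : ℤ)) J, N (Dj j (TT K u (FS (psi φ) S G))) ^ 2 := rfl
  rw [h10]
  refine h5.trans ?_
  have h11 : ∑ k ∈ S, N (G k) ^ 2 + N (FS (psi φ) S G) ^ 2 + N m ^ 2 ≤
      (C2 + (2 * L) ^ 2 + (C4 * (3 * (C3 + L))) ^ 2) * N F ^ 2 := by
    have h12 : ∑ k ∈ S, N (G k) ^ 2 ≤ C2 * N F ^ 2 := h6
    have e1 : (2 * L * N F) ^ 2 = (2 * L) ^ 2 * N F ^ 2 := by ring
    have e2 : (C4 * (3 * (C3 + L)) * N F) ^ 2 = (C4 * (3 * (C3 + L))) ^ 2 * N F ^ 2 := by ring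
    rw [e1] at h7
    rw [e2] at h9
    linarith
  have h13 := mul_le_mul_of_nonneg_left h11 hC1.le
  have h14 := sq_nonneg (N F)
  linarith

/-- the gluing theorem for a fixed kernel -/
theorem dec_fixed {φ Ψ : ℝ → ℝ} (hs : ContDiff ℝ 1 φ) (hc : HasCompactSupport φ)
    (h1 : ∫ s, φ s = 1) (e B : ℝ) : ∃ C : ℝ, 0 ≤ C ∧ ∀ K : ℝ → ℝ, CoreData K e Ψ (psi φ) B →
    ∀ u : ℝ × ℝ → ℝ, UOK e u → ∀ F : ℝ × ℝ → ℝ, CC2 F → N (TT K u F) ≤ C * N F := by
  have hφ : CC1 φ := ⟨hs.continuous, hc⟩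
  obtain ⟨C, hC, H⟩ := dec_trunc (Ψ := Ψ) hs hc h1 e B
  refine ⟨Real.sqrt C, Real.sqrt_nonneg _, fun K c u hu F hF => ?_⟩
  obtain ⟨cK, hcK⟩ := c.kok.bdd
  have hcK0 : 0 ≤ cK := (abs_nonneg _).trans (hcK 0)
  set p := L1 φ with hp
  have hp0 : 0 ≤ p := L1_nonneg _
  -- the error
  set ε : ℕ → ℝ := fun M => 3 * cK * ((1 + p + 2 * p ^ 2) * N (fun z => F z - Pk φ M F z) +
    (3 * p + 2 * p ^ 2) * N (Pk φ (-(M : ℤ)) F)) with hε
  have hlim : Tendsto ε atTop (𝓝 0) := by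
    have a1 := lim1 φ hφ h1 F hF
    have a2 := lim2 φ hφ F hF
    have a3 := ((a1.const_mul (1 + p + 2 * p ^ 2)).add (a2.const_mul (3 * p + 2 * p ^ 2))).const_mul
      (3 * cK)
    simp only [mul_zero, add_zero] at a3
    exact a3
  have hM : ∀ M : ℕ, N (TT K u F) ≤ Real.sqrt C * N F + ε M := by
    intro M
    set X := FS (psi φ) (Finset.Ico (-(M : ℤ)) M) (fun k => Th φ k F) with hX
    have hXc : CC2 X := CC2.sum _ fun k _ => (c.dyF k (Th_CC2 hφ k hF)).cH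
    have hXeq : X = fun z => PhF φ M F z - PhF φ (-(M : ℤ)) F z := by
      funext z; exact FS_Th hφ hF (by omega) z
    have a1 : N (TT K u X) ≤ Real.sqrt C * N F := by
      have h2 := H K c u hu F hF M
      refine le_of_sq_le_sq ?_ (mul_nonneg (Real.sqrt_nonneg _) (N_nonneg _))
      rw [mul_pow, Real.sq_sqrt hC.le]
      exact h2
    have hd : CC2 (fun z => F z - X z) := hF.sub hXc
    have a2 : N (TT K u (fun z => F z - X z)) ≤ 3 * cK * N (fun z => F z - X z) :=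
      N_TT_le c.kok hcK c.e1 hu hd
    have a3 : N (TT K u F) ≤ N (TT K u X) + N (TT K u (fun z => F z - X z)) := by
      have h3 : TT K u F = fun z => TT K u X z + TT K u (fun z => F z - X z) z := by
        funext z
        rw [TT_sub c.kok u hF.bm hXc.bm]; ring
      conv_lhs => rw [h3]
      exact N_add_le (TT_supp c.kok c.e1 hu hXc).bm (TT_supp c.kok c.e1 hu hd).bm
    have a4 : N (fun z => F z - X z) ≤ (1 + p + 2 * p ^ 2) * N (fun z => F z - Pk φ M F z) +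
        (3 * p + 2 * p ^ 2) * N (Pk φ (-(M : ℤ)) F) := by
      have q := Pk_CC2 hφ (M : ℤ) hF
      have qq := Pk_CC2 hφ (M : ℤ) q
      have qqq := Pk_CC2 hφ (M : ℤ) qq
      have hd0 : CC2 (fun z => F z - Pk φ M F z) := hF.sub q
      have hd1 := Pk_CC2 hφ (M : ℤ) hd0
      have hd2 := Pk_CC2 hφ (M : ℤ) hd1
      have e1 : ∀ z, Pk φ M (fun z => F z - Pk φ M F z) z = Pk φ M F z - Pk φ M (Pk φ M F) z :=
        fun z => cy_sub_right (hφ.dil _) hF q z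
      have e2 : ∀ z, Pk φ M (Pk φ M (fun z => F z - Pk φ M F z)) z =
          Pk φ M (Pk φ M F) z - Pk φ M (Pk φ M (Pk φ M F)) z := by
        intro z
        have h4 : Pk φ M (fun z => F z - Pk φ M F z) = fun z => Pk φ M F z - Pk φ M (Pk φ M F) z :=
          funext e1
        rw [h4]
        exact cy_sub_right (hφ.dil _) q qq z
      have e3 : (fun z => F z - X z) = fun z => ((fun z => (F z - Pk φ M F z) +
          Pk φ M (fun z => F z - Pk φ M F z) z) z -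
          2 * Pk φ M (Pk φ M (fun z => F z - Pk φ M F z)) z) + PhF φ (-(M : ℤ)) F z := by
        funext z
        rw [hXeq]
        simp only [e1, e2, PhF]
        ring
      rw [e3]
      have b1 := N_add_le ((hd0.add hd1).sub (hd2.const_mul 2)).bm (PhF_CC2 hφ (-(M : ℤ)) hF).bm
      have b2 := N_sub_le (hd0.add hd1).bm (hd2.const_mul 2).bm
      have b3 := N_add_le hd0.bm hd1.bm
      rw [N_const_mul, abs_of_pos (by norm_num : (0 : ℝ) < 2)] at b2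
      have b4 := N_Pk_le hφ (M : ℤ) hd0
      have b5 := N_Pk_le hφ (M : ℤ) hd1
      have b6 := N_PhF_le hφ (-(M : ℤ)) hF
      have b7 := mul_le_mul_of_nonneg_left b4 hp0
      nlinarith
    have a5 := mul_le_mul_of_nonneg_left a4 (by positivity : 0 ≤ 3 * cK)
    have a6 : ε M = 3 * cK * ((1 + p + 2 * p ^ 2) * N (fun z => F z - Pk φ M F z) +
      (3 * p + 2 * p ^ 2) * N (Pk φ (-(M : ℤ)) F)) := rfl
    linarith
  have h2 : Tendsto (fun M => Real.sqrt C * N F + ε M) atTop (𝓝 (Real.sqrt C * N F + 0)) :=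
    tendsto_const_nhds.add hlim
  rw [add_zero] at h2
  exact ge_of_tendsto' h2 hM

end Vale.Agent.P112.DEC
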