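import Vale.Agent.P112.H213.Op

/-!
# P112, DEC: the vertical derivative of `TT K u H`
-/

set_option linter.unusedSectionVars false
set_option linter.style.haveILetI false

open MeasureTheory Set
open scoped ENNReal NNReal Interval

namespace Vale.Agent.P112.DEC

/-- `H` is continuously differentiable in the second variable, with derivative `dH` -/
structure DY (H dH : ℝ × ℝ → ℝ) : Prop where
  cH : CC2 H
  cd : CC2 dH
  der : ∀ x s, HasDerivAt (fun s => H (x, s)) (dH (x, s)) s

/-- the vertical derivative of the field -/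
noncomputable def bu (u : ℝ × ℝ → ℝ) (z : ℝ × ℝ) : ℝ := deriv (fun s => u (z.1, s)) z.2

theorem measurable_bu {u : ℝ × ℝ → ℝ} (hu : Continuous u) : Measurable (bu u) := by
  exact measurable_deriv_with_param (𝕜 := ℝ) (f := fun (x : ℝ) (s : ℝ) => u (x, s)) hu

theorem UOK.lipW {e : ℝ} (he0 : 0 ≤ e) {u : ℝ × ℝ → ℝ} (hu : UOK e u) (x : ℝ) :
    LipschitzWith e.toNNReal (fun s => u (x, s)) :=
  LipschitzWith.of_dist_le_mul fun s s' => by
    rw [Real.dist_eq, Real.dist_eq, Real.coe_toNNReal e he0]; exact hu.lip x s s'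

theorem abs_bu_le {e : ℝ} (he0 : 0 ≤ e) {u : ℝ × ℝ → ℝ} (hu : UOK e u) (z : ℝ × ℝ) :
    |bu u z| ≤ e := by
  have := norm_deriv_le_of_lipschitz (x₀ := z.2) (hu.lipW he0 z.1)
  rw [Real.coe_toNNReal e he0] at this
  exact this

theorem ident1 {e : ℝ} (he0 : 0 ≤ e) {u : ℝ × ℝ → ℝ} (hu : UOK e u)
    {H dH : ℝ × ℝ → ℝ} (hd : DY H dH) (x t y y' : ℝ) :
    H (x - t, y' - t * u (x, y')) - H (x - t, y - t * u (x, y)) =
      ∫ s in y..y', dH (x - t, s - t * u (x, s)) * (1 - t * bu u (x, s)) := by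
  obtain ⟨M, hM⟩ := hd.cd.bm.bdd
  have hM0 : 0 ≤ M := (abs_nonneg _).trans (hM 0)
  have h1 : LipschitzWith M.toNNReal (fun s => H (x - t, s)) := by
    refine lipschitzWith_of_nnnorm_deriv_le (fun s => (hd.der (x - t) s).differentiableAt) ?_
    intro s
    rw [(hd.der (x - t) s).deriv, ← NNReal.coe_le_coe, Real.coe_toNNReal M hM0]
    exact hM (x - t, s)
  have h2 : LipschitzWith (1 + ‖t‖₊ * e.toNNReal) (fun s => s - t * u (x, s)) := by
    have h3 : LipschitzWith (‖t‖₊ * e.toNNReal) (fun s => t * u (x, s)) := by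
      refine LipschitzWith.of_dist_le_mul fun s s' => ?_
      rw [Real.dist_eq, Real.dist_eq, ← mul_sub, abs_mul, NNReal.coe_mul, coe_nnnorm,
        Real.norm_eq_abs, Real.coe_toNNReal e he0, mul_assoc]
      exact mul_le_mul_of_nonneg_left (hu.lip x s s') (abs_nonneg _)
    exact LipschitzWith.id.sub h3
  have h4 : LipschitzWith (M.toNNReal * (1 + ‖t‖₊ * e.toNNReal))
      (fun s => H (x - t, s - t * u (x, s))) := h1.comp h2
  have h5 := (h4.lipschitzOnWith (s := uIcc y y')).absolutelyContinuousOnInterval.integral_deriv_eq_sub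
  rw [← h5]
  refine intervalIntegral.integral_congr_ae ?_
  filter_upwards [(hu.lipW he0 x).ae_differentiableAt_real] with s hs _
  have h6 : HasDerivAt (fun s => u (x, s)) (bu u (x, s)) s := hs.hasDerivAt
  have h7 : HasDerivAt (fun s => s - t * u (x, s)) (1 - t * bu u (x, s)) s :=
    (hasDerivAt_id s).sub (h6.const_mul t)
  exact ((hd.der (x - t) (s - t * u (x, s))).comp s h7).deriv

/-- the kernel multiplied by `t` -/
theorem KOK.mulT {K : ℝ → ℝ} (hK : KOK K) : KOK (fun t => t * K t) :=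
  ⟨continuous_id.mul hK.cont, fun t ht => by rw [hK.supp t ht, mul_zero]⟩

theorem TT_eq_Icc {K : ℝ → ℝ} (hK : KOK K) (u F : ℝ × ℝ → ℝ) (z : ℝ × ℝ) :
    TT K u F z = ∫ t in Icc (-1 : ℝ) 1, K t * F (z.1 - t, z.2 - t * u z) := by
  rw [TT, setIntegral_eq_integral_of_forall_compl_eq_zero]
  intro t ht
  rw [mem_Icc, ← abs_le, not_le] at ht
  rw [hK.supp t ht.le, zero_mul]

theorem KOK.bdd {K : ℝ → ℝ} (hK : KOK K) : ∃ c, ∀ t, |K t| ≤ c := by
  have h : HasCompactSupport K := HasCompactSupport.intro (K := Icc (-1) 1) isCompact_Icc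
    fun t ht => hK.supp t (by rw [mem_Icc, ← abs_le, not_le] at ht; exact ht.le)
  obtain ⟨c, hc⟩ := h.exists_bound_of_continuous hK.cont
  exact ⟨c, fun t => by simpa using hc t⟩

theorem TT_integrable {K : ℝ → ℝ} (hK : KOK K) {u F : ℝ × ℝ → ℝ} (hF : BM2 F) (z : ℝ × ℝ) :
    IntegrableOn (fun t => K t * F (z.1 - t, z.2 - t * u z)) (Icc (-1 : ℝ) 1) := by
  obtain ⟨c, hc⟩ := hK.bdd
  obtain ⟨M, hM⟩ := hF.bdd
  refine Integrable.of_bound (C := c * M) ?_ ?_
  · have h1 := hF.meas
    have h2 := hK.cont.measurable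
    have h3 : Measurable fun t : ℝ => F (z.1 - t, z.2 - t * u z) := h1.comp (by fun_prop)
    exact (h2.mul h3).aestronglyMeasurable
  · refine Filter.Eventually.of_forall fun t => ?_
    rw [Real.norm_eq_abs, abs_mul]
    exact mul_le_mul (hc t) (hM _) (abs_nonneg _) ((abs_nonneg _).trans (hc t))

/-- **The key identity**: `∂_y (T H) = T (∂_y H) - u_y A (∂_y H)`. -/
theorem ident {K : ℝ → ℝ} (hK : KOK K) {e : ℝ} (he0 : 0 ≤ e) {u : ℝ × ℝ → ℝ} (hu : UOK e u)
    {H dH : ℝ × ℝ → ℝ} (hd : DY H dH) (x y y' : ℝ) :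
    TT K u H (x, y') - TT K u H (x, y) =
      ∫ s in y..y', (TT K u dH (x, s) - bu u (x, s) * TT (fun t => t * K t) u dH (x, s)) := by
  obtain ⟨c, hc⟩ := hK.bdd
  obtain ⟨M, hM⟩ := hd.cd.bm.bdd
  have hb := measurable_bu hu.cont
  have hbe := abs_bu_le he0 hu
  have hc0 : 0 ≤ c := (abs_nonneg _).trans (hc 0)
  have hM0 : 0 ≤ M := (abs_nonneg _).trans (hM 0)
  rw [TT_eq_Icc hK, TT_eq_Icc hK, ← integral_sub (TT_integrable hK hd.cH.bm _)
    (TT_integrable hK hd.cH.bm _)]
  have h1 : ∀ t, K t * H ((x, y').1 - t, (x, y').2 - t * u (x, y')) -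
      K t * H ((x, y).1 - t, (x, y).2 - t * u (x, y)) =
      ∫ s in y..y', K t * (dH (x - t, s - t * u (x, s)) * (1 - t * bu u (x, s))) := by
    intro t
    rw [intervalIntegral.integral_const_mul, ← ident1 he0 hu hd x t y y']
    ring
  simp_rw [h1]
  simp_rw [intervalIntegral.intervalIntegral_eq_integral_uIoc]
  rw [integral_smul]
  congr 1
  rw [integral_integral_swap]
  · refine integral_congr_ae (Filter.Eventually.of_forall fun s => ?_)
    show (∫ t in Icc (-1 : ℝ) 1, K t * (dH (x - t, s - t * u (x, s)) * (1 - t * bu u (x, s)))) =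
      TT K u dH (x, s) - bu u (x, s) * TT (fun t => t * K t) u dH (x, s)
    rw [TT_eq_Icc hK, TT_eq_Icc hK.mulT, ← integral_const_mul, ← integral_sub
      (TT_integrable hK hd.cd.bm _) ((TT_integrable hK.mulT hd.cd.bm _).const_mul _)]
    refine integral_congr_ae (Filter.Eventually.of_forall fun t => ?_)
    show K t * (dH (x - t, s - t * u (x, s)) * (1 - t * bu u (x, s))) =
      K t * dH (x - t, s - t * u (x, s)) - bu u (x, s) * (t * K t * dH (x - t, s - t * u (x, s)))
    ring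
  · haveI : IsFiniteMeasure (volume.restrict (Ι y y')) :=
      ⟨by rw [Measure.restrict_apply_univ, uIoc]; exact measure_Ioc_lt_top⟩
    haveI : IsFiniteMeasure (volume.restrict (Icc (-1 : ℝ) 1)) :=
      ⟨by rw [Measure.restrict_apply_univ]; exact measure_Icc_lt_top⟩
    have h2 : (volume.restrict (Icc (-1 : ℝ) 1)).prod (volume.restrict (Ι y y')) =
        (volume.prod volume).restrict (Icc (-1 : ℝ) 1 ×ˢ Ι y y') := Measure.prod_restrict _ _
    refine Integrable.of_bound (C := c * (M * (1 + 1 * e))) ?_ ?_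
    · have h3 := hK.cont.measurable
      have h4 := hd.cd.1.measurable
      have h5 := hu.cont.measurable
      have h6 : Measurable fun p : ℝ × ℝ => dH (x - p.1, p.2 - p.1 * u (x, p.2)) :=
        h4.comp (by fun_prop)
      have h7 : Measurable fun p : ℝ × ℝ => bu u (x, p.2) := hb.comp (by fun_prop)
      exact ((h3.comp measurable_fst).mul (h6.mul (measurable_const.sub
        (measurable_fst.mul h7)))).aestronglyMeasurable
    · rw [h2]
      refine ae_restrict_of_forall_mem (measurableSet_Icc.prod measurableSet_uIoc) ?_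
      rintro ⟨t, s⟩ ⟨ht, _⟩
      show ‖K t * (dH (x - t, s - t * u (x, s)) * (1 - t * bu u (x, s)))‖ ≤ _
      rw [Real.norm_eq_abs, abs_mul, abs_mul]
      have h8 : |1 - t * bu u (x, s)| ≤ 1 + 1 * e := by
        have h9 : |t| ≤ 1 := abs_le.2 ht
        calc |1 - t * bu u (x, s)| ≤ |(1 : ℝ)| + |t * bu u (x, s)| := abs_sub _ _
          _ ≤ 1 + 1 * e := by
            rw [abs_one, abs_mul]
            have := mul_le_mul h9 (hbe (x, s)) (abs_nonneg _) zero_le_one
            linarith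
      exact mul_le_mul (hc t) (mul_le_mul (hM _) h8 (abs_nonneg _) hM0)
        (by positivity) hc0

end Vale.Agent.P112.DEC
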