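import Vale.Agent.P112.H213.Dec
import Vale.Agent.P112.H213.Band
import Vale.Agent.P112.H889.KS

/-!
# P112, DEC: the band theorem gives the bound for all functions, tent kernels
-/

set_option linter.unusedSectionVars false
set_option linter.unusedVariables false
set_option linter.style.haveILetI false

open MeasureTheory Set Filter Topology
open scoped ENNReal NNReal Interval ContDiff

namespace Vale.Agent.P112.DEC

/-- the form in which the band theorem is used -/
def BKAll (e : ℝ) (M : ℕ) : Prop := ∀ K : ℝ → ℝ, ContDiff ℝ ∞ K → (∀ t, K (-t) = -K t) →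
  (∀ t, 1 / 8 ≤ |t| → K t = 0) → ∀ Φ : ℝ → ℝ, ContDiff ℝ ∞ Φ → (∀ t, 1 ≤ |t| → Φ t = 0) →
  ∃ B : ℝ, 0 ≤ B ∧ ∀ n : ℕ, BK (fun t => ∑ j ∈ Finset.range n, 2 ^ j * K (2 ^ j * t)) e
    (iteratedDeriv M Φ) B

theorem deriv_zero_of_supp {X : ℝ → ℝ} (hX : ContDiff ℝ ∞ X) (hs : ∀ t, 1 ≤ |t| → X t = 0) :
    ∀ t, 1 ≤ |t| → deriv X t = 0 := by
  have hd : ∀ t, HasDerivAt X (deriv X t) t := fun t =>
    ((hX.differentiable (by norm_num)) t).hasDerivAt
  intro t ht
  rcases le_abs.1 ht with h | h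
  · have h1 : HasDerivWithinAt X (deriv X t) (Ici t) t := (hd t).hasDerivWithinAt
    have h2 : HasDerivWithinAt X 0 (Ici t) t := by
      refine (hasDerivWithinAt_const t (Ici t) (0 : ℝ)).congr (fun s hs' => ?_) (hs t ht)
      exact hs s (le_abs.2 (Or.inl (h.trans hs')))
    exact (uniqueDiffWithinAt_Ici t).eq_deriv _ h1 h2
  · have h1 : HasDerivWithinAt X (deriv X t) (Iic t) t := (hd t).hasDerivWithinAt
    have h2 : HasDerivWithinAt X 0 (Iic t) t := by
      refine (hasDerivWithinAt_const t (Iic t) (0 : ℝ)).congr (fun s hs' => ?_) (hs t ht)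
      have : s ≤ t := hs'
      exact hs s (le_abs.2 (Or.inr (by linarith)))
    exact (uniqueDiffWithinAt_Iic t).eq_deriv _ h1 h2

theorem KOK.of_ks {K : ℝ → ℝ} (hK : ContDiff ℝ ∞ K) (hs : ∀ t, 1 / 8 ≤ |t| → K t = 0) (n : ℕ) :
    KOK (fun t => ∑ j ∈ Finset.range n, 2 ^ j * K (2 ^ j * t)) := by
  refine ⟨?_, fun t ht => ?_⟩
  · have := hK.continuous
    fun_prop
  · refine Finset.sum_eq_zero fun j _ => ?_
    rw [hs, mul_zero]
    rw [abs_mul, abs_of_pos (by positivity : (0 : ℝ) < 2 ^ j)]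
    have : (1 : ℝ) ≤ 2 ^ j := one_le_pow₀ (by norm_num)
    nlinarith [abs_nonneg t]

theorem TT_const_mul_left (K : ℝ → ℝ) (u : ℝ × ℝ → ℝ) (c : ℝ) (F : ℝ × ℝ → ℝ) (z : ℝ × ℝ) :
    TT (fun t => c * K t) u F z = c * TT K u F z := by
  simp only [TT, ← integral_const_mul]
  refine integral_congr_ae (Eventually.of_forall fun t => ?_)
  show c * K t * F _ = c * (K t * F _)
  ring

theorem KOK.add {K K' : ℝ → ℝ} (hK : KOK K) (hK' : KOK K') : KOK (fun t => K t + K' t) :=
  ⟨hK.cont.add hK'.cont, fun t ht => by rw [hK.supp t ht, hK'.supp t ht, add_zero]⟩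

theorem TT_add_left {K K' : ℝ → ℝ} (hK : KOK K) (hK' : KOK K') (u : ℝ × ℝ → ℝ) {F : ℝ × ℝ → ℝ}
    (hF : BM2 F) (z : ℝ × ℝ) : TT (fun t => K t + K' t) u F z = TT K u F z + TT K' u F z := by
  rw [TT_eq_Icc (hK.add hK'), TT_eq_Icc hK, TT_eq_Icc hK', ← integral_add (TT_integrable hK hF z) (TT_integrable hK' hF z)]
  refine integral_congr_ae (Eventually.of_forall fun t => ?_)
  show (K t + K' t) * F _ = K t * F _ + K' t * F _
  ring

/-- **DEC**: the band theorem gives the uniform bound with the tent pieces. -/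
theorem dec {e : ℝ} (he0 : 0 ≤ e) (he : e ≤ 1 / 2) {M : ℕ} (h : BKAll e M) :
    ∃ C : ℝ, 0 ≤ C ∧ ∀ u : ℝ × ℝ → ℝ, UOK e u → ∀ (n : ℕ) (F : ℝ × ℝ → ℝ), CC2 F →
      N (TT (fun t => ∑ l ∈ Finset.range n, eta (sc l) t) u F) ≤ C * N F := by
  obtain ⟨K, D, hK, hodd, hKs, hDc, ⟨m, hm⟩, hDs, hsum⟩ := ks
  obtain ⟨φ, X, hφ, hφs, hφ1, hX, hXs, hXd⟩ := kerm M
  have hm0 : 0 ≤ m := (abs_nonneg _).trans (hm 0)
  have hcs : ∀ f : ℝ → ℝ, (∀ t, 1 ≤ |t| → f t = 0) → HasCompactSupport f := fun f hf =>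
    HasCompactSupport.intro (K := Icc (-1) 1) isCompact_Icc fun t ht => hf t (by
      rw [mem_Icc, ← abs_le, not_le] at ht; exact ht.le)
  -- derivatives of `X`
  have hX1 : ContDiff ℝ ∞ (deriv X) := (contDiff_infty_iff_deriv.1 hX).2
  have hX2 : ContDiff ℝ ∞ (deriv (deriv X)) := (contDiff_infty_iff_deriv.1 hX1).2
  have hX1s := deriv_zero_of_supp hX hXs
  have hX2s := deriv_zero_of_supp hX1 hX1s
  have hit : ∀ n, ContDiff ℝ ∞ (iteratedDeriv n X) ∧ ∀ t, 1 ≤ |t| → iteratedDeriv n X t = 0 := by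
    intro n
    induction n with
    | zero => simpa using ⟨hX, hXs⟩
    | succ n ih =>
      rw [iteratedDeriv_succ]
      exact ⟨(contDiff_infty_iff_deriv.1 ih.1).2, deriv_zero_of_supp ih.1 ih.2⟩
  obtain ⟨B1, hB1, H1⟩ := h K hK hodd hKs X hX hXs
  obtain ⟨B2, hB2, H2⟩ := h K hK hodd hKs (deriv X) hX1 hX1s
  obtain ⟨B3, hB3, H3⟩ := h K hK hodd hKs (deriv (deriv X)) hX2 hX2s
  have e1 : psi φ = iteratedDeriv (M + 1) X := by
    funext s; rw [hXd s]; rfl
  have e2 : iteratedDeriv M (deriv X) = psi φ := by rw [e1, iteratedDeriv_succ']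
  have e3 : deriv (iteratedDeriv M X) = psi φ := by rw [e1, iteratedDeriv_succ]
  have e4 : iteratedDeriv M (deriv (deriv X)) = deriv (psi φ) := by
    rw [← e2, ← iteratedDeriv_succ, ← iteratedDeriv_succ']
  rw [e2] at H2
  rw [e4] at H3
  set B := B1 + B2 + B3 with hB
  obtain ⟨C, hC0, HC⟩ := dec_fixed (Ψ := iteratedDeriv M X) (hφ.of_le (by norm_num)) (hcs φ hφs)
    hφ1 e B
  -- the normalised kernels
  set c : ℝ := 1 + 2 * m with hc
  have hc1 : 1 ≤ c := by rw [hc]; linarith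
  have hc0 : 0 < c := by linarith
  have hci : c⁻¹ ≤ 1 := inv_le_one_of_one_le₀ hc1
  have hci0 : 0 < c⁻¹ := inv_pos.2 hc0
  have hKn := fun n => KOK.of_ks hK hKs n
  have hbd : ∀ n t, |t * ∑ j ∈ Finset.range n, 2 ^ j * K (2 ^ j * t)| ≤ c := by
    intro n t
    have hD1 : ∀ t, |t * D t| ≤ m := by
      intro t
      by_cases ht : 1 ≤ |t|
      · rw [hDs t ht, mul_zero, abs_zero]; exact hm0
      · rw [abs_mul]
        calc |t| * |D t| ≤ 1 * m := mul_le_mul (not_le.1 ht).le (hm t) (abs_nonneg _) zero_le_one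
          _ = m := one_mul m
    have h1 := hD1 t
    have h2 := hD1 (2 ^ n * t)
    have h3 : |t * ∑ l ∈ Finset.range n, eta (sc l) t| ≤ 1 := by
      have h4 : t * ∑ l ∈ Finset.range n, eta (sc l) t = 
          if t = 0 then 0 else chi t - chi (2 ^ n * t) := by
        have h5 := sum_eta 0 n t
        have h6 : ∑ l ∈ Finset.range n, eta (sc l) t =
            ∑ l ∈ Finset.range n, eta ((1 / 2) ^ (0 + l)) t :=
          Finset.sum_congr rfl fun l _ => by rw [zero_add]; rfl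
        rw [h6, h5]
        split_ifs with h0
        · rw [h0, zero_mul]
        · rw [pow_zero, one_mul, zero_add]
          field_simp
      rw [h4]
      split_ifs
      · simp
      · rw [abs_le]
        have := chi_nonneg t
        have := chi_le_one t
        have := chi_nonneg (2 ^ n * t)
        have := chi_le_one (2 ^ n * t)
        constructor <;> linarith
    have h4 : t * ∑ j ∈ Finset.range n, 2 ^ j * K (2 ^ j * t) =
        t * ∑ l ∈ Finset.range n, eta (sc l) t + t * D t - (2 ^ n * t) * D (2 ^ n * t) := by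
      rw [hsum n t]; ring
    rw [h4]
    calc _ ≤ |t * ∑ l ∈ Finset.range n, eta (sc l) t + t * D t| + |(2 ^ n * t) * D (2 ^ n * t)| :=
          abs_sub _ _
      _ ≤ |t * ∑ l ∈ Finset.range n, eta (sc l) t| + |t * D t| + |(2 ^ n * t) * D (2 ^ n * t)| := by
          gcongr; exact abs_add_le _ _
      _ ≤ c := by rw [hc]; linarith
  have hBK : ∀ {ψ : ℝ → ℝ} {B' : ℝ}, 0 ≤ B' → B' ≤ B →
      (∀ n, BK (fun t => ∑ j ∈ Finset.range n, 2 ^ j * K (2 ^ j * t)) e ψ B') →
      ∀ n, BK (fun t => c⁻¹ * ∑ j ∈ Finset.range n, 2 ^ j * K (2 ^ j * t)) e ψ B := by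
    intro ψ B' hB' hBB H n u hu F hF
    have h1 := H n u hu F hF
    have h2 : TT (fun t => c⁻¹ * ∑ j ∈ Finset.range n, 2 ^ j * K (2 ^ j * t)) u (cy ψ F) =
        fun z => c⁻¹ * TT (fun t => ∑ j ∈ Finset.range n, 2 ^ j * K (2 ^ j * t)) u (cy ψ F) z := by
      funext z; exact TT_const_mul_left _ _ _ _ _
    rw [h2, N_const_mul, abs_of_pos hci0]
    have h3 := N_nonneg (TT (fun t => ∑ j ∈ Finset.range n, 2 ^ j * K (2 ^ j * t)) u (cy ψ F))
    have h4 := mul_le_mul_of_nonneg_right hBB (N_nonneg F)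
    have h5 := mul_le_mul_of_nonneg_right hci h3
    linarith
  have hcore : ∀ n, CoreData (fun t => c⁻¹ * ∑ j ∈ Finset.range n, 2 ^ j * K (2 ^ j * t)) e
      (iteratedDeriv M X) (psi φ) B := by
    intro n
    have hψ := hit (M + 1)
    rw [← e1] at hψ
    exact
      { e0 := he0
        e1 := he
        kok := ⟨continuous_const.mul (hKn n).cont, fun t ht => by rw [(hKn n).supp t ht, mul_zero]⟩
        kt := fun t => by
          have h1 : t * (c⁻¹ * ∑ j ∈ Finset.range n, 2 ^ j * K (2 ^ j * t)) =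
              c⁻¹ * (t * ∑ j ∈ Finset.range n, 2 ^ j * K (2 ^ j * t)) := by ring
          rw [h1, abs_mul, abs_of_pos hci0]
          calc c⁻¹ * |t * ∑ j ∈ Finset.range n, 2 ^ j * K (2 ^ j * t)| ≤ c⁻¹ * c :=
                mul_le_mul_of_nonneg_left (hbd n t) hci0.le
            _ = 1 := inv_mul_cancel₀ hc0.ne'
        B0 := by positivity
        cΨ := (hit M).1.of_le (by norm_num)
        sΨ := hcs _ (hit M).2
        cψ := hψ.1.of_le (by norm_num)
        sψ := hcs _ hψ.2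
        dΨ := e3
        b1 := hBK hB1 (by linarith) H1 n
        b2 := hBK hB2 (by linarith) H2 n
        b3 := hBK hB3 (by linarith) H3 n }
  -- conclusion
  refine ⟨c * C + 3 * m + 2 * (2 * m), by positivity, fun u hu n F hF => ?_⟩
  have hDk : KOK D := ⟨hDc, hDs⟩
  have hDn : KOK (fun t => -1 * (2 ^ n * D (2 ^ n * t))) := by
    refine ⟨by fun_prop, fun t ht => ?_⟩
    rw [hDs, mul_zero, mul_zero]
    rw [abs_mul, abs_of_pos (by positivity : (0 : ℝ) < 2 ^ n)]
    have : (1 : ℝ) ≤ 2 ^ n := one_le_pow₀ (by norm_num)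
    nlinarith [abs_nonneg t]
  have hDn' : KOK (fun t => 2 ^ n * D (2 ^ n * t)) := by
    refine ⟨by fun_prop, fun t ht => ?_⟩
    have := hDn.supp t ht
    linarith
  have hDm : KOK (fun t => -1 * D t) :=
    ⟨by fun_prop, fun t ht => by rw [hDs t ht, mul_zero]⟩
  have hT : TT (fun t => ∑ l ∈ Finset.range n, eta (sc l) t) u F = fun z =>
      (c * TT (fun t => c⁻¹ * ∑ j ∈ Finset.range n, 2 ^ j * K (2 ^ j * t)) u F z -
      TT D u F z) + TT (fun t => 2 ^ n * D (2 ^ n * t)) u F z := by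
    funext z
    rw [TT_const_mul_left, ← mul_assoc, mul_inv_cancel₀ hc0.ne', one_mul]
    have h1 : (fun t => ∑ l ∈ Finset.range n, eta (sc l) t) = fun t =>
        (∑ j ∈ Finset.range n, 2 ^ j * K (2 ^ j * t) + -1 * D t) + 2 ^ n * D (2 ^ n * t) := by
      funext t; rw [hsum n t]; ring
    rw [h1, TT_add_left ((hKn n).add hDm) hDn' u hF.bm,
      TT_add_left (hKn n) hDm u hF.bm, TT_const_mul_left]
    ring
  have b1 := HC _ (hcore n) u hu F hF
  have hkk := (hcore n).kok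
  have t1 := (TT_supp hkk he hu hF).const_mul c
  have t2 := TT_supp hDk he hu hF
  have t3 := TT_supp hDn' he hu hF
  have b2 := N_TT_le hDk hm he hu hF
  have hmass : ∫ t, |2 ^ n * D (2 ^ n * t)| ≤ 2 * m := by
    have h2 : (0 : ℝ) < 2 ^ n := by positivity
    have h3 : ∫ t, |2 ^ n * D (2 ^ n * t)| = ∫ t, |D t| := by
      simp only [abs_mul, abs_of_pos h2, integral_const_mul]
      rw [Measure.integral_comp_mul_left (fun s => |D s|), abs_of_pos (inv_pos.2 h2), smul_eq_mul,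
        ← mul_assoc, mul_inv_cancel₀ h2.ne', one_mul]
    rw [h3]
    have h4 : ∫ t, |D t| = ∫ t in Icc (-1 : ℝ) 1, |D t| := by
      rw [setIntegral_eq_integral_of_forall_compl_eq_zero]
      intro t ht
      rw [mem_Icc, ← abs_le, not_le] at ht
      rw [hDs t ht.le, abs_zero]
    rw [h4]
    have h5 := norm_setIntegral_le_of_norm_le_const (μ := volume) (s := Icc (-1 : ℝ) 1)
      (f := fun t => |D t|) (C := m) (by simp) (fun t _ => by
        rw [Real.norm_eq_abs, abs_abs]; exact hm t)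
    have h6 : (volume : Measure ℝ).real (Icc (-1 : ℝ) 1) = 2 := by
      rw [Measure.real, Real.volume_Icc]; norm_num
    rw [h6] at h5
    have h7 := le_abs_self (∫ t in Icc (-1 : ℝ) 1, |D t|)
    rw [Real.norm_eq_abs] at h5
    linarith
  have b3 := N_TT_le_mass hDn' hmass he hu hF
  rw [hT]
  have c1 := N_add_le (t1.sub t2).bm t3.bm
  have c2 := N_sub_le t1.bm t2.bm
  rw [N_const_mul, abs_of_pos hc0] at c2
  have b4 := mul_le_mul_of_nonneg_left b1 hc0.le
  linarith

end Vale.Agent.P112.DEC
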