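import Vale.Agent.P112.H213.Defs

/-!
# P112, DEC: the `L²` norm on bounded measurable functions with bounded support
-/

set_option linter.unusedSectionVars false

open MeasureTheory Set
open scoped ENNReal NNReal

namespace Vale.Agent.P112.DEC

/-- bounded measurable functions on the plane with bounded support -/
structure BM2 (F : ℝ × ℝ → ℝ) : Prop where
  meas : Measurable F
  bdd : ∃ M, ∀ z, |F z| ≤ M
  supp : ∃ R, ∀ z : ℝ × ℝ, R ≤ |z.1| ∨ R ≤ |z.2| → F z = 0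

/-- the `L²` norm -/
noncomputable def N (F : ℝ × ℝ → ℝ) : ℝ := Real.sqrt (∫ z, F z ^ 2)

theorem BM2.congr_supp {F G : ℝ × ℝ → ℝ} (hF : BM2 F) (hG : Measurable G)
    (hb : ∃ M, ∀ z, |G z| ≤ M) (h : ∀ z, F z = 0 → G z = 0) : BM2 G := by
  obtain ⟨R, hR⟩ := hF.supp
  exact ⟨hG, hb, R, fun z hz => h z (hR z hz)⟩

theorem BM2.zero : BM2 (fun _ => 0) :=
  ⟨measurable_const, ⟨0, fun _ => by simp⟩, ⟨0, fun _ _ => rfl⟩⟩

theorem BM2.add {F G : ℝ × ℝ → ℝ} (hF : BM2 F) (hG : BM2 G) : BM2 (fun z => F z + G z) := by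
  obtain ⟨M, hM⟩ := hF.bdd
  obtain ⟨M', hM'⟩ := hG.bdd
  obtain ⟨R, hR⟩ := hF.supp
  obtain ⟨R', hR'⟩ := hG.supp
  refine ⟨hF.meas.add hG.meas, ⟨M + M', fun z => (abs_add_le _ _).trans (add_le_add (hM z) (hM' z))⟩,
    ⟨max R R', fun z hz => ?_⟩⟩
  have h1 : R ≤ |z.1| ∨ R ≤ |z.2| := hz.imp (le_trans (le_max_left _ _)) (le_trans (le_max_left _ _))
  have h2 : R' ≤ |z.1| ∨ R' ≤ |z.2| :=
    hz.imp (le_trans (le_max_right _ _)) (le_trans (le_max_right _ _))
  show F z + G z = 0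
  rw [hR z h1, hR' z h2, add_zero]

theorem BM2.neg {F : ℝ × ℝ → ℝ} (hF : BM2 F) : BM2 (fun z => - F z) :=
  hF.congr_supp hF.meas.neg (by obtain ⟨M, hM⟩ := hF.bdd; exact ⟨M, fun z => by simpa using hM z⟩)
    (fun z hz => by rw [hz, neg_zero])

theorem BM2.sub {F G : ℝ × ℝ → ℝ} (hF : BM2 F) (hG : BM2 G) : BM2 (fun z => F z - G z) := by
  simpa [sub_eq_add_neg] using hF.add hG.neg

theorem BM2.mul_bdd {F b : ℝ × ℝ → ℝ} (hF : BM2 F) (hb : Measurable b) {e : ℝ}
    (he : ∀ z, |b z| ≤ e) : BM2 (fun z => b z * F z) := by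
  obtain ⟨M, hM⟩ := hF.bdd
  refine hF.congr_supp (hb.mul hF.meas) ⟨e * M, fun z => ?_⟩ (fun z hz => by rw [hz, mul_zero])
  rw [abs_mul]
  exact mul_le_mul (he z) (hM z) (abs_nonneg _) ((abs_nonneg _).trans (he z))

theorem BM2.const_mul {F : ℝ × ℝ → ℝ} (hF : BM2 F) (c : ℝ) : BM2 (fun z => c * F z) :=
  hF.mul_bdd (b := fun _ => c) measurable_const (e := |c|) fun _ => le_rfl

theorem BM2.abs {F : ℝ × ℝ → ℝ} (hF : BM2 F) : BM2 (fun z => |F z|) :=
  hF.congr_supp hF.meas.abs (by obtain ⟨M, hM⟩ := hF.bdd; exact ⟨M, fun z => by simpa using hM z⟩)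
    (fun z hz => by rw [hz, abs_zero])

theorem BM2.sum {ι : Type*} (s : Finset ι) {F : ι → ℝ × ℝ → ℝ} (hF : ∀ i ∈ s, BM2 (F i)) :
    BM2 (fun z => ∑ i ∈ s, F i z) := by
  classical
  induction s using Finset.induction_on with
  | empty => simpa using BM2.zero
  | insert a s ha ih =>
    have := (hF a (Finset.mem_insert_self _ _)).add (ih fun i hi => hF i (Finset.mem_insert_of_mem hi))
    refine this.congr_supp ?_ ?_ ?_
    · simpa only [Finset.sum_insert ha] using this.meas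
    · simpa only [Finset.sum_insert ha] using this.bdd
    · intro z hz; simpa only [Finset.sum_insert ha] using hz

theorem BM2.sup {F G : ℝ × ℝ → ℝ} (hF : BM2 F) (hG : BM2 G) : BM2 (fun z => max (F z) (G z)) := by
  obtain ⟨M, hM⟩ := hF.bdd
  obtain ⟨M', hM'⟩ := hG.bdd
  have h := hF.abs.add hG.abs
  refine h.congr_supp (hF.meas.max hG.meas) ⟨max M M', fun z => ?_⟩ ?_
  · exact abs_max_le_max_abs_abs.trans (max_le_max (hM z) (hM' z))
  · intro z hz
    have h1 := abs_nonneg (F z)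
    have h2 := abs_nonneg (G z)
    have h3 : |F z| = 0 := by linarith
    have h4 : |G z| = 0 := by linarith
    rw [abs_eq_zero.1 h3, abs_eq_zero.1 h4, max_self]

theorem BM2.finite_supp {F : ℝ × ℝ → ℝ} (hF : BM2 F) : volume (Function.support F) < ∞ := by
  obtain ⟨R, hR⟩ := hF.supp
  refine lt_of_le_of_lt (measure_mono (t := Icc (-R) R ×ˢ Icc (-R) R) ?_) ?_
  · intro z hz
    by_contra hcon
    refine hz (hR z ?_)
    rw [mem_prod, mem_Icc, mem_Icc, ← abs_le, ← abs_le, not_and_or, not_le, not_le] at hcon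
    exact hcon.imp le_of_lt le_of_lt
  · rw [Measure.volume_eq_prod, Measure.prod_prod]
    exact ENNReal.mul_lt_top (by simp) (by simp)

theorem BM2.memLp {F : ℝ × ℝ → ℝ} (hF : BM2 F) (p : ℝ≥0∞) : MemLp F p volume := by
  obtain ⟨M, hM⟩ := hF.bdd
  have h1 : MemLp F ∞ volume := memLp_top_of_bound hF.meas.aestronglyMeasurable M
    (Filter.Eventually.of_forall fun z => by simpa using hM z)
  have h2 : MemLp ((Function.support F).indicator F) p volume := by
    rw [memLp_indicator_iff_restrict (measurableSet_support hF.meas)]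
    haveI : IsFiniteMeasure (volume.restrict (Function.support F)) :=
      ⟨by rw [Measure.restrict_apply_univ]; exact hF.finite_supp⟩
    exact (h1.restrict _).mono_exponent le_top
  rwa [Set.indicator_support] at h2

theorem BM2.integrable {F : ℝ × ℝ → ℝ} (hF : BM2 F) : Integrable F volume :=
  memLp_one_iff_integrable.1 (hF.memLp 1)

theorem BM2.sq {F : ℝ × ℝ → ℝ} (hF : BM2 F) : BM2 (fun z => F z ^ 2) := by
  obtain ⟨M, hM⟩ := hF.bdd
  refine hF.congr_supp (hF.meas.pow_const 2) ⟨M ^ 2, fun z => ?_⟩ (fun z hz => by rw [hz]; simp)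
  rw [abs_pow]
  exact pow_le_pow_left₀ (abs_nonneg _) (hM z) 2

theorem BM2.integrable_sq {F : ℝ × ℝ → ℝ} (hF : BM2 F) : Integrable (fun z => F z ^ 2) volume :=
  hF.sq.integrable

theorem N_nonneg (F : ℝ × ℝ → ℝ) : 0 ≤ N F := Real.sqrt_nonneg _

theorem N_sq (F : ℝ × ℝ → ℝ) : N F ^ 2 = ∫ z, F z ^ 2 :=
  Real.sq_sqrt (integral_nonneg fun _ => sq_nonneg _)

theorem N_eq {F : ℝ × ℝ → ℝ} (hF : BM2 F) : N F = (eLpNorm F 2 volume).toReal := by
  rw [(hF.memLp 2).eLpNorm_eq_integral_rpow_norm (by norm_num) (by norm_num),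
    ENNReal.toReal_ofReal (by positivity), N, Real.sqrt_eq_rpow]
  norm_num

theorem N_lint {F : ℝ × ℝ → ℝ} (hF : BM2 F) :
    ENNReal.ofReal (N F ^ 2) = ∫⁻ z, ‖F z‖ₑ ^ 2 := by
  rw [N_sq, ofReal_integral_eq_lintegral_ofReal hF.integrable_sq
    (Filter.Eventually.of_forall fun _ => sq_nonneg _)]
  refine lintegral_congr fun z => ?_
  rw [← enorm_pow, Real.enorm_of_nonneg (sq_nonneg _)]

theorem N_add_le {F G : ℝ × ℝ → ℝ} (hF : BM2 F) (hG : BM2 G) :
    N (fun z => F z + G z) ≤ N F + N G := by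
  rw [N_eq hF, N_eq hG, N_eq (hF.add hG), ← ENNReal.toReal_add (hF.memLp 2).eLpNorm_ne_top
    (hG.memLp 2).eLpNorm_ne_top]
  refine ENNReal.toReal_mono (ENNReal.add_ne_top.2 ⟨(hF.memLp 2).eLpNorm_ne_top,
    (hG.memLp 2).eLpNorm_ne_top⟩) ?_
  exact eLpNorm_add_le hF.meas.aestronglyMeasurable hG.meas.aestronglyMeasurable (by norm_num)

theorem N_neg (F : ℝ × ℝ → ℝ) : N (fun z => - F z) = N F := by simp [N]

theorem N_abs (F : ℝ × ℝ → ℝ) : N (fun z => |F z|) = N F := by simp [N]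

theorem N_sub_le {F G : ℝ × ℝ → ℝ} (hF : BM2 F) (hG : BM2 G) :
    N (fun z => F z - G z) ≤ N F + N G := by
  have := N_add_le hF hG.neg
  simpa [sub_eq_add_neg, N_neg] using this

theorem N_zero : N (fun _ => 0) = 0 := by simp [N]

theorem N_sum_le {ι : Type*} (s : Finset ι) {F : ι → ℝ × ℝ → ℝ} (hF : ∀ i ∈ s, BM2 (F i)) :
    N (fun z => ∑ i ∈ s, F i z) ≤ ∑ i ∈ s, N (F i) := by
  classical
  induction s using Finset.induction_on with
  | empty => simp [N]
  | insert a s ha ih =>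
    have h1 := N_add_le (hF a (Finset.mem_insert_self _ _))
      (BM2.sum s fun i hi => hF i (Finset.mem_insert_of_mem hi))
    have h2 := ih fun i hi => hF i (Finset.mem_insert_of_mem hi)
    simp only [Finset.sum_insert ha]
    linarith

theorem N_mono {F G : ℝ × ℝ → ℝ} (hG : BM2 G) (h : ∀ z, |F z| ≤ |G z|) : N F ≤ N G := by
  refine Real.sqrt_le_sqrt (integral_mono_of_nonneg (Filter.Eventually.of_forall fun _ => sq_nonneg _)
    hG.integrable_sq (Filter.Eventually.of_forall fun z => ?_))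
  exact sq_le_sq.2 (h z)

theorem N_mul_le {F b : ℝ × ℝ → ℝ} (hF : BM2 F) {e : ℝ} (he0 : 0 ≤ e) (he : ∀ z, |b z| ≤ e) :
    N (fun z => b z * F z) ≤ e * N F := by
  have h1 : N (fun z => b z * F z) ≤ N (fun z => e * F z) :=
    N_mono (hF.const_mul e) fun z => by
      rw [abs_mul, abs_mul, abs_of_nonneg he0]
      exact mul_le_mul_of_nonneg_right (he z) (abs_nonneg _)
  refine h1.trans (le_of_eq ?_)
  simp only [N, mul_pow, integral_const_mul]
  rw [Real.sqrt_mul (sq_nonneg e), Real.sqrt_sq he0]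

theorem N_const_mul (c : ℝ) (F : ℝ × ℝ → ℝ) : N (fun z => c * F z) = |c| * N F := by
  simp only [N, mul_pow, integral_const_mul]
  rw [Real.sqrt_mul (sq_nonneg c), Real.sqrt_sq_eq_abs]

theorem CC2.bm {F : ℝ × ℝ → ℝ} (hF : CC2 F) : BM2 F := by
  obtain ⟨M, hM⟩ := hF.2.exists_bound_of_continuous hF.1
  refine ⟨hF.1.measurable, ⟨M, fun z => by simpa using hM z⟩, ?_⟩
  obtain ⟨R, hR⟩ := hF.2.isBounded.subset_closedBall (0 : ℝ × ℝ)
  refine ⟨R + 1, fun z hz => ?_⟩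
  by_contra hcon
  have h1 : z ∈ Metric.closedBall (0 : ℝ × ℝ) R := hR (subset_tsupport _ hcon)
  rw [mem_closedBall_zero_iff, Prod.norm_def] at h1
  have h2 : |z.1| ≤ R := (le_max_left _ _).trans h1
  have h3 : |z.2| ≤ R := (le_max_right _ _).trans h1
  rcases hz with hz | hz <;> linarith

/-- continuous functions vanishing outside a square are in `CC2` -/
theorem CC2.of_supp {F : ℝ × ℝ → ℝ} (hc : Continuous F) {R : ℝ}
    (h : ∀ z : ℝ × ℝ, R ≤ |z.1| ∨ R ≤ |z.2| → F z = 0) : CC2 F := by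
  refine ⟨hc, HasCompactSupport.intro (K := Icc (-R) R ×ˢ Icc (-R) R)
    (isCompact_Icc.prod isCompact_Icc) fun z hz => h z ?_⟩
  rw [mem_prod, mem_Icc, mem_Icc, ← abs_le, ← abs_le, not_and_or, not_le, not_le] at hz
  exact hz.imp le_of_lt le_of_lt

theorem CC2.add {F G : ℝ × ℝ → ℝ} (hF : CC2 F) (hG : CC2 G) : CC2 (fun z => F z + G z) :=
  ⟨hF.1.add hG.1, hF.2.add hG.2⟩

theorem CC2.const_mul {F : ℝ × ℝ → ℝ} (hF : CC2 F) (c : ℝ) : CC2 (fun z => c * F z) :=
  ⟨continuous_const.mul hF.1, hF.2.mul_left⟩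

theorem CC2.neg {F : ℝ × ℝ → ℝ} (hF : CC2 F) : CC2 (fun z => - F z) := by
  simpa using hF.const_mul (-1)

theorem CC2.sub {F G : ℝ × ℝ → ℝ} (hF : CC2 F) (hG : CC2 G) : CC2 (fun z => F z - G z) := by
  simpa [sub_eq_add_neg] using hF.add hG.neg

theorem CC2.zero : CC2 (fun _ => 0) := ⟨continuous_const, HasCompactSupport.zero⟩

theorem CC2.sum {ι : Type*} (s : Finset ι) {F : ι → ℝ × ℝ → ℝ} (hF : ∀ i ∈ s, CC2 (F i)) :
    CC2 (fun z => ∑ i ∈ s, F i z) := by
  classical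
  induction s using Finset.induction_on with
  | empty => simpa using CC2.zero
  | insert a s ha ih =>
    have := (hF a (Finset.mem_insert_self _ _)).add (ih fun i hi => hF i (Finset.mem_insert_of_mem hi))
    simpa only [Finset.sum_insert ha] using this

theorem CC2.abs {F : ℝ × ℝ → ℝ} (hF : CC2 F) : CC2 (fun z => |F z|) :=
  ⟨hF.1.abs, by simpa using hF.2.norm⟩

end Vale.Agent.P112.DEC
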