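import Vale.Agent.P112.H213.Tasks

/-!
# P112, DEC: all bands from one band, by scaling in the second variable
-/

set_option linter.unusedSectionVars false
set_option linter.unusedVariables false

open MeasureTheory Set
open scoped ENNReal NNReal Interval

namespace Vale.Agent.P112.DEC

/-- the band bound for one kernel `K` and one band function `ψ` -/
def BK (K : ℝ → ℝ) (e : ℝ) (ψ : ℝ → ℝ) (B : ℝ) : Prop := ∀ u : ℝ × ℝ → ℝ, UOK e u →
  ∀ F : ℝ × ℝ → ℝ, CC2 F → N (TT K u (cy ψ F)) ≤ B * N F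

/-- `z ↦ (z₁, 2^(-k) z₂)` -/
noncomputable def Sk (k : ℤ) (z : ℝ × ℝ) : ℝ × ℝ := (z.1, (2 : ℝ) ^ (-k) * z.2)

theorem continuous_Sk (k : ℤ) : Continuous (Sk k) := by unfold Sk; fun_prop

theorem two_zpow_pos (k : ℤ) : (0 : ℝ) < (2 : ℝ) ^ k := by positivity

theorem zpow_mul_neg (k : ℤ) : (2 : ℝ) ^ (-k) * (2 : ℝ) ^ k = 1 := by
  rw [← zpow_add₀ (by norm_num : (2 : ℝ) ≠ 0)]; simp

theorem zpow_mul_neg' (k : ℤ) : (2 : ℝ) ^ k * (2 : ℝ) ^ (-k) = 1 := by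
  rw [mul_comm, zpow_mul_neg]

theorem N_comp_Sk (k : ℤ) {F : ℝ × ℝ → ℝ} (hF : BM2 F) :
    N (fun z => F (Sk k z)) = Real.sqrt ((2 : ℝ) ^ k) * N F := by
  have h2 := two_zpow_pos k
  have h3 := two_zpow_pos (-k)
  rw [N, N, ← Real.sqrt_mul h2.le]
  congr 1
  have hi := hF.integrable_sq
  have hi2 : Integrable (fun z : ℝ × ℝ => F (Sk k z) ^ 2) volume := by
    have hb : BM2 (fun z => F (Sk k z)) := by
      obtain ⟨M, hM⟩ := hF.bdd
      obtain ⟨R, hR⟩ := hF.supp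
      refine ⟨hF.meas.comp (continuous_Sk k).measurable, ⟨M, fun z => hM _⟩,
        ⟨max R ((2 : ℝ) ^ k * |R|), fun z hz => hR _ ?_⟩⟩
      rcases hz with hz | hz
      · left; exact (le_max_left _ _).trans hz
      · right
        have h4 := (le_max_right R ((2 : ℝ) ^ k * |R|)).trans hz
        have h5 : |(Sk k z).2| = (2 : ℝ) ^ (-k) * |z.2| := by
          simp only [Sk, abs_mul, abs_of_pos h3]
        rw [h5]
        calc R ≤ |R| := le_abs_self R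
          _ = (2 : ℝ) ^ (-k) * ((2 : ℝ) ^ k * |R|) := by
            rw [← mul_assoc, zpow_mul_neg, one_mul]
          _ ≤ (2 : ℝ) ^ (-k) * |z.2| := mul_le_mul_of_nonneg_left h4 h3.le
    exact hb.integrable_sq
  rw [Measure.volume_eq_prod] at hi hi2 ⊢
  rw [integral_prod _ hi2, integral_prod _ hi, ← integral_const_mul]
  refine integral_congr_ae (Filter.Eventually.of_forall fun x => ?_)
  show ∫ y, F (x, (2 : ℝ) ^ (-k) * y) ^ 2 = (2 : ℝ) ^ k * ∫ y, F (x, y) ^ 2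
  rw [Measure.integral_comp_mul_left (fun y => F (x, y) ^ 2), abs_of_pos (inv_pos.2 h3), smul_eq_mul]
  rw [zpow_neg, inv_inv]

theorem BK.scale {K : ℝ → ℝ} (hK : KOK K) {e : ℝ} (he : e ≤ 1 / 2) {ψ : ℝ → ℝ} (hψ : CC1 ψ) {B : ℝ}
    (h : BK K e ψ B) (k : ℤ) : BK K e (dil k ψ) B := by
  intro u hu F hF
  have h2 := two_zpow_pos k
  have h3 := two_zpow_pos (-k)
  have hu' : UOK e (fun z => (2 : ℝ) ^ k * u (Sk k z)) := by
    obtain ⟨U, hU⟩ := hu.bdd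
    refine ⟨continuous_const.mul (hu.cont.comp (continuous_Sk k)), ⟨(2 : ℝ) ^ k * U, fun z => ?_⟩, ?_⟩
    · rw [abs_mul, abs_of_pos h2]; exact mul_le_mul_of_nonneg_left (hU _) h2.le
    · intro x y y'
      rw [← mul_sub, abs_mul, abs_of_pos h2]
      have h4 := hu.lip x ((2 : ℝ) ^ (-k) * y) ((2 : ℝ) ^ (-k) * y')
      calc (2 : ℝ) ^ k * |u (Sk k (x, y)) - u (Sk k (x, y'))|
          ≤ (2 : ℝ) ^ k * (e * |(2 : ℝ) ^ (-k) * y - (2 : ℝ) ^ (-k) * y'|) :=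
            mul_le_mul_of_nonneg_left h4 h2.le
        _ = e * |y - y'| := by
            rw [← mul_sub, abs_mul, abs_of_pos h3]
            linear_combination (e * |y - y'|) * zpow_mul_neg' k
  have hF' : CC2 (fun z => F (Sk k z)) := by
    refine ⟨hF.1.comp (continuous_Sk k), ?_⟩
    obtain ⟨R, hR⟩ := hF.bm.supp
    refine (CC2.of_supp (R := max R ((2 : ℝ) ^ k * |R|)) (hF.1.comp (continuous_Sk k))
      fun z hz => hR _ ?_).2
    rcases hz with hz | hz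
    · left; exact (le_max_left _ _).trans hz
    · right
      have h4 := (le_max_right R ((2 : ℝ) ^ k * |R|)).trans hz
      have h5 : |(Sk k z).2| = (2 : ℝ) ^ (-k) * |z.2| := by
        simp only [Sk, abs_mul, abs_of_pos h3]
      rw [h5]
      calc R ≤ |R| := le_abs_self R
        _ = (2 : ℝ) ^ (-k) * ((2 : ℝ) ^ k * |R|) := by
          rw [← mul_assoc, zpow_mul_neg, one_mul]
        _ ≤ (2 : ℝ) ^ (-k) * |z.2| := mul_le_mul_of_nonneg_left h4 h3.le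
  -- the convolution
  have h6 : ∀ z, cy (dil k ψ) F (Sk k z) = cy ψ (fun z => F (Sk k z)) z := by
    intro z
    have h7 := Measure.integral_comp_mul_left
      (fun r => ψ r * F (z.1, (2 : ℝ) ^ (-k) * (z.2 - r))) ((2 : ℝ) ^ k)
    rw [abs_of_pos (inv_pos.2 h2), smul_eq_mul] at h7
    have h8 : cy ψ (fun z => F (Sk k z)) z = ∫ r, ψ r * F (z.1, (2 : ℝ) ^ (-k) * (z.2 - r)) := rfl
    rw [h8]
    have h9 : ∫ r, ψ r * F (z.1, (2 : ℝ) ^ (-k) * (z.2 - r)) = (2 : ℝ) ^ k *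
        ∫ s, ψ ((2 : ℝ) ^ k * s) * F (z.1, (2 : ℝ) ^ (-k) * (z.2 - (2 : ℝ) ^ k * s)) := by
      rw [h7, ← mul_assoc, mul_inv_cancel₀ h2.ne', one_mul]
    rw [h9, ← integral_const_mul, cy]
    refine integral_congr_ae (Filter.Eventually.of_forall fun s => ?_)
    show dil k ψ s * F ((Sk k z).1, (Sk k z).2 - s) =
      (2 : ℝ) ^ k * (ψ ((2 : ℝ) ^ k * s) * F (z.1, (2 : ℝ) ^ (-k) * (z.2 - (2 : ℝ) ^ k * s)))
    have h10 : (Sk k z).2 - s = (2 : ℝ) ^ (-k) * (z.2 - (2 : ℝ) ^ k * s) := by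
      show (2 : ℝ) ^ (-k) * z.2 - s = (2 : ℝ) ^ (-k) * (z.2 - (2 : ℝ) ^ k * s)
      rw [mul_sub, ← mul_assoc, zpow_mul_neg, one_mul]
    rw [h10]
    show (2 : ℝ) ^ k * ψ ((2 : ℝ) ^ k * s) * F (z.1, _) = _
    ring
  have h11 : ∀ z, TT K u (cy (dil k ψ) F) (Sk k z) =
      TT K (fun z => (2 : ℝ) ^ k * u (Sk k z)) (cy ψ (fun z => F (Sk k z))) z := by
    intro z
    unfold TT
    refine integral_congr_ae (Filter.Eventually.of_forall fun t => ?_)
    show K t * cy (dil k ψ) F ((Sk k z).1 - t, (Sk k z).2 - t * u (Sk k z)) =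
      K t * cy ψ (fun z => F (Sk k z)) (z.1 - t, z.2 - t * ((2 : ℝ) ^ k * u (Sk k z)))
    rw [← h6]
    congr 2
    refine Prod.ext rfl ?_
    show (2 : ℝ) ^ (-k) * z.2 - t * u (Sk k z) =
      (2 : ℝ) ^ (-k) * (z.2 - t * ((2 : ℝ) ^ k * u (Sk k z)))
    linear_combination (t * u (Sk k z)) * zpow_mul_neg k
  have hW : CC2 (TT K u (cy (dil k ψ) F)) := TT_supp hK he hu (cy_CC2 (hψ.dil k) hF)
  have h12 := h _ hu' _ hF'
  have h13 : N (fun z => TT K u (cy (dil k ψ) F) (Sk k z)) =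
      N (TT K (fun z => (2 : ℝ) ^ k * u (Sk k z)) (cy ψ (fun z => F (Sk k z)))) := by
    congr 1; funext z; exact h11 z
  rw [← h13, N_comp_Sk k hW.bm, N_comp_Sk k hF.bm] at h12
  have h14 : 0 < Real.sqrt ((2 : ℝ) ^ k) := Real.sqrt_pos.2 h2
  have h15 : Real.sqrt ((2 : ℝ) ^ k) * N (TT K u (cy (dil k ψ) F)) ≤
      Real.sqrt ((2 : ℝ) ^ k) * (B * N F) := by linarith
  exact le_of_mul_le_mul_left h15 h14

end Vale.Agent.P112.DEC
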