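import Vale.Agent.P112.H213.Core3
import Vale.Agent.P112.S408.Max
import Vale.Agent.P112.H158.Ker
import Vale.Agent.P112.H158.LP3

/-!
# P112, DEC: the decomposition into bands
-/

set_option linter.unusedSectionVars false
set_option linter.unusedVariables false
set_option linter.style.haveILetI false

open MeasureTheory Set Filter Topology
open scoped ENNReal NNReal Interval

namespace Vale.Agent.P112.DEC

/-- `P_k` -/
noncomputable def Pk (φ : ℝ → ℝ) (k : ℤ) (F : ℝ × ℝ → ℝ) : ℝ × ℝ → ℝ := cy (dil k φ) F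

/-- the band function -/
noncomputable def psi (φ : ℝ → ℝ) (s : ℝ) : ℝ := dil 1 φ s - φ s

/-- the kernel of `P - P²` -/
noncomputable def rho (φ : ℝ → ℝ) (s : ℝ) : ℝ := φ s - cv φ φ s

/-- the kernel of `3 P² - 2 P³` -/
noncomputable def Phik (φ : ℝ → ℝ) (s : ℝ) : ℝ := 3 * cv φ φ s - 2 * cv φ (cv φ φ) s

/-- `Φ_k F = 3 P_k² F - 2 P_k³ F` -/
noncomputable def PhF (φ : ℝ → ℝ) (k : ℤ) (F : ℝ × ℝ → ℝ) (z : ℝ × ℝ) : ℝ :=
  3 * Pk φ k (Pk φ k F) z - 2 * Pk φ k (Pk φ k (Pk φ k F)) z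

/-- `Θ_k F` -/
noncomputable def Th (φ : ℝ → ℝ) (k : ℤ) (F : ℝ × ℝ → ℝ) (z : ℝ × ℝ) : ℝ :=
  3 * cy (dil k (rho φ)) F z + 3 * cy (dil (k + 1) (rho φ)) F z +
    cy (dil k (psi φ)) (cy (dil k (psi φ)) F) z

section Alg

variable {φ : ℝ → ℝ} (hφ : CC1 φ)
include hφ

theorem psi_CC1 : CC1 (psi φ) := (hφ.dil 1).sub hφ

theorem rho_CC1 : CC1 (rho φ) := hφ.sub (cv_CC1 hφ hφ)

theorem Pk_CC2 (k : ℤ) {F : ℝ × ℝ → ℝ} (hF : CC2 F) : CC2 (Pk φ k F) := cy_CC2 (hφ.dil k) hF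

theorem dil_psi (k : ℤ) : dil k (psi φ) = fun s => dil (k + 1) φ s - dil k φ s := by
  have h := dil_dil k 1 φ
  funext s
  have h2 : dil k (dil 1 φ) s = dil (k + 1) φ s := by rw [h]
  simp only [dil, psi] at h2 ⊢
  rw [← h2]; ring

theorem cy_psi (k : ℤ) {F : ℝ × ℝ → ℝ} (hF : CC2 F) (z : ℝ × ℝ) :
    cy (dil k (psi φ)) F z = Pk φ (k + 1) F z - Pk φ k F z := by
  rw [dil_psi hφ k]
  exact cy_sub_left (hφ.dil _) (hφ.dil _) hF z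

omit hφ in
theorem dil_cv (k : ℤ) (f g : ℝ → ℝ) : dil k (cv f g) = cv (dil k f) (dil k g) := by
  funext s
  have h2 := two_zpow_pos k
  have h7 := Measure.integral_comp_mul_left (fun r => f r * g ((2 : ℝ) ^ k * s - r)) ((2 : ℝ) ^ k)
  rw [abs_of_pos (inv_pos.2 h2), smul_eq_mul] at h7
  have h8 : ∫ r, f r * g ((2 : ℝ) ^ k * s - r) = (2 : ℝ) ^ k *
      ∫ r, f ((2 : ℝ) ^ k * r) * g ((2 : ℝ) ^ k * s - (2 : ℝ) ^ k * r) := by
    rw [h7, ← mul_assoc, mul_inv_cancel₀ h2.ne', one_mul]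
  simp only [dil, cv]
  rw [h8, ← integral_const_mul, ← integral_const_mul]
  refine integral_congr_ae (Eventually.of_forall fun r => ?_)
  show (2 : ℝ) ^ k * ((2 : ℝ) ^ k * (f ((2 : ℝ) ^ k * r) * g ((2 : ℝ) ^ k * s - (2 : ℝ) ^ k * r))) =
    (2 : ℝ) ^ k * f ((2 : ℝ) ^ k * r) * ((2 : ℝ) ^ k * g ((2 : ℝ) ^ k * (s - r)))
  rw [mul_sub]; ring

theorem cy_dil_cv (k : ℤ) {f g : ℝ → ℝ} (hf : CC1 f) (hg : CC1 g) {F : ℝ × ℝ → ℝ} (hF : CC2 F) (z : ℝ × ℝ) :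
    cy (dil k (cv f g)) F z = cy (dil k f) (cy (dil k g) F) z := by
  rw [dil_cv]; exact cy_cv (hf.dil k) (hg.dil k) hF z

theorem cy_rho (k : ℤ) {F : ℝ × ℝ → ℝ} (hF : CC2 F) (z : ℝ × ℝ) :
    cy (dil k (rho φ)) F z = Pk φ k F z - Pk φ k (Pk φ k F) z := by
  have h1 : dil k (rho φ) = fun s => dil k φ s - dil k (cv φ φ) s := by
    funext s; simp only [dil, rho]; ring
  rw [h1, cy_sub_left (hφ.dil k) ((cv_CC1 hφ hφ).dil k) hF z, cy_dil_cv hφ k hφ hφ hF]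
  rfl

theorem Phik_CC1 : CC1 (Phik φ) := by
  have h1 : CC1 (fun s => 3 * cv φ φ s) :=
    ⟨continuous_const.mul (cv_CC1 hφ hφ).1, (cv_CC1 hφ hφ).2.mul_left⟩
  have h2 : CC1 (fun s => 2 * cv φ (cv φ φ) s) :=
    ⟨continuous_const.mul (cv_CC1 hφ (cv_CC1 hφ hφ)).1, (cv_CC1 hφ (cv_CC1 hφ hφ)).2.mul_left⟩
  exact h1.sub h2

theorem cy_Phik (k : ℤ) {F : ℝ × ℝ → ℝ} (hF : CC2 F) (z : ℝ × ℝ) :
    cy (dil k (Phik φ)) F z = PhF φ k F z := by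
  have h1 : dil k (Phik φ) = fun s => (fun s => 3 * dil k (cv φ φ) s) s -
      (fun s => 2 * dil k (cv φ (cv φ φ)) s) s := by
    funext s; simp only [dil, Phik]; ring
  have c1 : CC1 (fun s => 3 * dil k (cv φ φ) s) :=
    ⟨continuous_const.mul ((cv_CC1 hφ hφ).dil k).1, ((cv_CC1 hφ hφ).dil k).2.mul_left⟩
  have c2 : CC1 (fun s => 2 * dil k (cv φ (cv φ φ)) s) :=
    ⟨continuous_const.mul ((cv_CC1 hφ (cv_CC1 hφ hφ)).dil k).1,
      ((cv_CC1 hφ (cv_CC1 hφ hφ)).dil k).2.mul_left⟩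
  rw [h1, cy_sub_left c1 c2 hF z, cy_mul_left, cy_mul_left, cy_dil_cv hφ k hφ hφ hF,
    cy_dil_cv hφ k hφ (cv_CC1 hφ hφ) hF]
  have h2 : cy (dil k (cv φ φ)) F = cy (dil k φ) (cy (dil k φ) F) := by
    funext w; exact cy_dil_cv hφ k hφ hφ hF w
  rw [h2]; rfl

theorem Th_eq (k : ℤ) {F : ℝ × ℝ → ℝ} (hF : CC2 F) : Th φ k F = fun z =>
    (3 * Pk φ k F z - 2 * Pk φ k (Pk φ k F) z) +
    (3 * Pk φ (k + 1) F z - 2 * Pk φ (k + 1) (Pk φ (k + 1) F) z) -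
    2 * Pk φ k (Pk φ (k + 1) F) z := by
  funext z
  have hp := psi_CC1 hφ
  have h1 : cy (dil k (psi φ)) F = fun w => Pk φ (k + 1) F w - Pk φ k F w := by
    funext w; exact cy_psi hφ k hF w
  have h2 : CC2 (fun w => Pk φ (k + 1) F w - Pk φ k F w) := (Pk_CC2 hφ _ hF).sub (Pk_CC2 hφ _ hF)
  rw [Th, cy_rho hφ k hF, cy_rho hφ (k + 1) hF, h1, cy_psi hφ k h2]
  have h3 : Pk φ (k + 1) (fun w => Pk φ (k + 1) F w - Pk φ k F w) z =
      Pk φ (k + 1) (Pk φ (k + 1) F) z - Pk φ (k + 1) (Pk φ k F) z :=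
    cy_sub_right (hφ.dil _) (Pk_CC2 hφ _ hF) (Pk_CC2 hφ _ hF) z
  have h4 : Pk φ k (fun w => Pk φ (k + 1) F w - Pk φ k F w) z =
      Pk φ k (Pk φ (k + 1) F) z - Pk φ k (Pk φ k F) z :=
    cy_sub_right (hφ.dil _) (Pk_CC2 hφ _ hF) (Pk_CC2 hφ _ hF) z
  have h5 : Pk φ (k + 1) (Pk φ k F) z = Pk φ k (Pk φ (k + 1) F) z :=
    cy_comm (hφ.dil _) (hφ.dil _) hF z
  rw [h3, h4, h5]; ring

theorem Th_CC2 (k : ℤ) {F : ℝ × ℝ → ℝ} (hF : CC2 F) : CC2 (Th φ k F) := by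
  rw [Th_eq hφ k hF]
  have a := Pk_CC2 hφ k hF
  have b := Pk_CC2 hφ (k + 1) hF
  exact (((a.const_mul 3).sub ((Pk_CC2 hφ k a).const_mul 2)).add
    ((b.const_mul 3).sub ((Pk_CC2 hφ (k + 1) b).const_mul 2))).sub ((Pk_CC2 hφ k b).const_mul 2)

/-- the band component is `Φ_{k+1} F - Φ_k F` -/
theorem Fk_Th (k : ℤ) {F : ℝ × ℝ → ℝ} (hF : CC2 F) (z : ℝ × ℝ) :
    Fk (psi φ) k (Th φ k F) z = PhF φ (k + 1) F z - PhF φ k F z := by
  have a := Pk_CC2 hφ k hF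
  have b := Pk_CC2 hφ (k + 1) hF
  have aa := Pk_CC2 hφ k a
  have bb := Pk_CC2 hφ (k + 1) b
  have ab := Pk_CC2 hφ k b
  have lin : ∀ (j : ℤ) (w : ℝ × ℝ), Pk φ j (Th φ k F) w =
      (3 * Pk φ j (Pk φ k F) w - 2 * Pk φ j (Pk φ k (Pk φ k F)) w) +
      (3 * Pk φ j (Pk φ (k + 1) F) w - 2 * Pk φ j (Pk φ (k + 1) (Pk φ (k + 1) F)) w) -
      2 * Pk φ j (Pk φ k (Pk φ (k + 1) F)) w := by
    intro j w
    rw [Th_eq hφ k hF]
    have hd := hφ.dil j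
    have s1 := cy_sub_right hd (((a.const_mul 3).sub (aa.const_mul 2)).add
      ((b.const_mul 3).sub (bb.const_mul 2))) (ab.const_mul 2) w
    have s2 := cy_add_right hd ((a.const_mul 3).sub (aa.const_mul 2))
      ((b.const_mul 3).sub (bb.const_mul 2)) w
    have s3 := cy_sub_right hd (a.const_mul 3) (aa.const_mul 2) w
    have s4 := cy_sub_right hd (b.const_mul 3) (bb.const_mul 2) w
    have s5 := cy_mul_right (dil j φ) 3 (Pk φ k F) w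
    have s6 := cy_mul_right (dil j φ) 2 (Pk φ k (Pk φ k F)) w
    have s7 := cy_mul_right (dil j φ) 3 (Pk φ (k + 1) F) w
    have s8 := cy_mul_right (dil j φ) 2 (Pk φ (k + 1) (Pk φ (k + 1) F)) w
    have s9 := cy_mul_right (dil j φ) 2 (Pk φ k (Pk φ (k + 1) F)) w
    rw [s5, s6] at s3
    rw [s7, s8] at s4
    rw [s3, s4] at s2
    rw [s2, s9] at s1
    exact s1
  have hT := Th_CC2 hφ k hF
  have h1 : Fk (psi φ) k (Th φ k F) z = Pk φ (k + 1) (Th φ k F) z - Pk φ k (Th φ k F) z :=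
    cy_psi hφ k hT z
  rw [h1, lin, lin]
  -- commutations
  have c1 : ∀ {X : ℝ × ℝ → ℝ}, CC2 X → ∀ w, Pk φ (k + 1) (Pk φ k X) w = Pk φ k (Pk φ (k + 1) X) w :=
    fun hX w => cy_comm (hφ.dil _) (hφ.dil _) hX w
  have c2 : Pk φ (k + 1) (Pk φ k F) = Pk φ k (Pk φ (k + 1) F) := funext (c1 hF)
  have e1 : Pk φ (k + 1) (Pk φ k (Pk φ k F)) z = Pk φ k (Pk φ k (Pk φ (k + 1) F)) z := by
    rw [c1 a z, c2]
  have e2 : Pk φ (k + 1) (Pk φ k (Pk φ (k + 1) F)) z = Pk φ k (Pk φ (k + 1) (Pk φ (k + 1) F)) z :=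
    c1 b z
  rw [e1, e2, c2]
  simp only [PhF]
  ring

theorem PhF_CC2 (k : ℤ) {F : ℝ × ℝ → ℝ} (hF : CC2 F) : CC2 (PhF φ k F) := by
  have a := Pk_CC2 hφ k hF
  have aa := Pk_CC2 hφ k a
  exact (aa.const_mul 3).sub ((Pk_CC2 hφ k aa).const_mul 2)

theorem N_Pk_le (k : ℤ) {F : ℝ × ℝ → ℝ} (hF : CC2 F) : N (Pk φ k F) ≤ L1 φ * N F := by
  have := N_cy_le (hφ.dil k) hF
  rwa [L1_dil] at this

/-- the bound of `Θ_k F` -/
theorem N_Th_sq (k : ℤ) {F : ℝ × ℝ → ℝ} (hF : CC2 F) : N (Th φ k F) ^ 2 ≤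
    3 * (9 * N (cy (dil k (rho φ)) F) ^ 2 + 9 * N (cy (dil (k + 1) (rho φ)) F) ^ 2 +
      L1 (psi φ) ^ 2 * N (cy (dil k (psi φ)) F) ^ 2) := by
  have r := rho_CC1 hφ
  have p := psi_CC1 hφ
  have a := cy_CC2 (r.dil k) hF
  have b := cy_CC2 (r.dil (k + 1)) hF
  have c := cy_CC2 (p.dil k) hF
  have d := cy_CC2 (p.dil k) c
  have h1 := N_add_le ((a.const_mul 3).bm.add (b.const_mul 3).bm) d.bm
  have h2 := N_add_le (a.const_mul 3).bm (b.const_mul 3).bm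
  rw [N_const_mul, N_const_mul, abs_of_pos (by norm_num : (0 : ℝ) < 3)] at h2
  have h3 := N_cy_le (p.dil k) c
  rw [L1_dil] at h3
  have h4 : N (Th φ k F) ≤ 3 * N (cy (dil k (rho φ)) F) + 3 * N (cy (dil (k + 1) (rho φ)) F) +
      L1 (psi φ) * N (cy (dil k (psi φ)) F) := by
    have h5 : N (Th φ k F) = N (fun z => 3 * cy (dil k (rho φ)) F z +
      3 * cy (dil (k + 1) (rho φ)) F z + cy (dil k (psi φ)) (cy (dil k (psi φ)) F) z) := rfl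
    rw [h5]; linarith
  have h6 := pow_le_pow_left₀ (N_nonneg _) h4 2
  refine h6.trans ?_
  nlinarith [sq_nonneg (3 * N (cy (dil k (rho φ)) F) - 3 * N (cy (dil (k + 1) (rho φ)) F)),
    sq_nonneg (3 * N (cy (dil k (rho φ)) F) - L1 (psi φ) * N (cy (dil k (psi φ)) F)),
    sq_nonneg (3 * N (cy (dil (k + 1) (rho φ)) F) - L1 (psi φ) * N (cy (dil k (psi φ)) F))]

end Alg

/-- square function bound of the `Θ_k F` -/
theorem sum_Th {φ : ℝ → ℝ} (hs : ContDiff ℝ 1 φ) (hc : HasCompactSupport φ) (h1 : ∫ s, φ s = 1) :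
    ∃ C : ℝ, 0 < C ∧ ∀ (S : Finset ℤ) (F : ℝ × ℝ → ℝ), CC2 F →
      ∑ k ∈ S, N (Th φ k F) ^ 2 ≤ C * N F ^ 2 := by
  have hφ : CC1 φ := ⟨hs.continuous, hc⟩
  have hr : ContDiff ℝ 1 (rho φ) := hs.sub (cv_contDiff hs hc hφ)
  have hp : ContDiff ℝ 1 (psi φ) := (contDiff_dil hs 1).sub hs
  have ir : ∫ s, rho φ s = 0 := by
    have h2 : ∫ s, cv φ φ s = 1 := by
      rw [cv_eq]
      rw [integral_convolution (L := ContinuousLinearMap.mul ℝ ℝ) hφ.integrable hφ.integrable]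
      simp [h1]
    have h3 : ∫ s, rho φ s = (∫ s, φ s) - ∫ s, cv φ φ s :=
      integral_sub hφ.integrable (cv_CC1 hφ hφ).integrable
    rw [h3, h1, h2, sub_self]
  have ip : ∫ s, psi φ s = 0 := by
    have h3 : ∫ s, psi φ s = (∫ s, dil 1 φ s) - ∫ s, φ s :=
      integral_sub (hφ.dil 1).integrable hφ.integrable
    rw [h3, integral_dil, sub_self]
  obtain ⟨C1, hC1, H1⟩ := Vale.Agent.P112.H158.dec_lp (rho φ) hr (rho_CC1 hφ).2 ir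
  obtain ⟨C2, hC2, H2⟩ := Vale.Agent.P112.H158.dec_lp (psi φ) hp (psi_CC1 hφ).2 ip
  refine ⟨3 * (9 * C1 + 9 * C1 + L1 (psi φ) ^ 2 * C2 + 1), by positivity, fun S F hF => ?_⟩
  have a1 := H1 S F hF
  have a2 := H2 S F hF
  have a3 := H1 (S.map (addRightEmbedding (1 : ℤ))) F hF
  rw [Finset.sum_map] at a3
  simp only [addRightEmbedding_apply, ← N_sq] at a1 a2 a3
  have b0 : ∑ k ∈ S, N (Th φ k F) ^ 2 ≤ ∑ k ∈ S, 3 * (9 * N (cy (dil k (rho φ)) F) ^ 2 +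
      9 * N (cy (dil (k + 1) (rho φ)) F) ^ 2 +
      L1 (psi φ) ^ 2 * N (cy (dil k (psi φ)) F) ^ 2) :=
    Finset.sum_le_sum fun k _ => N_Th_sq hφ k hF
  rw [← Finset.mul_sum, Finset.sum_add_distrib, Finset.sum_add_distrib, ← Finset.mul_sum,
    ← Finset.mul_sum, ← Finset.mul_sum] at b0
  have b1 := mul_le_mul_of_nonneg_left a2 (sq_nonneg (L1 (psi φ)))
  have b2 := sq_nonneg (N F)
  nlinarith

/-- telescoping -/
theorem sum_Ico_tel (f : ℤ → ℝ) (a b : ℤ) (h : a ≤ b) :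
    ∑ k ∈ Finset.Ico a b, (f (k + 1) - f k) = f b - f a := by
  induction b, h using Int.le_induction with
  | base => simp
  | succ n hn ih =>
    have h1 : Finset.Ico a (n + 1) = insert n (Finset.Ico a n) := by
      ext x; simp only [Finset.mem_Ico, Finset.mem_insert]; omega
    rw [h1, Finset.sum_insert (by simp), ih]; ring

end Vale.Agent.P112.DEC
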